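import Vale.Agent.Lib.P047F.IB.Der

/-!
# P047 Part I.B: the base case
-/

open Finset

namespace P047F

private theorem baseB_orth {α : Type} [Fintype α] [DecidableEq α] (x y : α → Bool) :
    ∑ S : Finset α, (chi S x : ℝ) * (chi S y : ℝ) =
      if x = y then (2 : ℝ) ^ (Fintype.card α) else 0 := by
  have h1 : ∀ S : Finset α, (chi S x : ℝ) * (chi S y : ℝ) =
      ∏ i ∈ S, ((if x i then (-1 : ℝ) else 1) * (if y i then (-1 : ℝ) else 1)) := by
    intro S
    unfold chi
    push_cast
    rw [← Finset.prod_mul_distrib]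
  rw [Finset.sum_congr rfl fun S _ => h1 S]
  have h2 := Finset.prod_one_add (R := ℝ) (s := (Finset.univ : Finset α))
    (f := fun i => (if x i then (-1 : ℝ) else 1) * (if y i then (-1 : ℝ) else 1))
  rw [Finset.powerset_univ] at h2
  rw [← h2]
  split_ifs with hxy
  · subst hxy
    rw [Finset.prod_congr rfl (g := fun _ => (2 : ℝ))]
    · rw [Finset.prod_const, Finset.card_univ]
    · intro i _
      split_ifs <;> norm_num
  · obtain ⟨i, hi⟩ := Function.ne_iff.1 hxy
    refine Finset.prod_eq_zero (Finset.mem_univ i) ?_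
    cases hx : x i <;> cases hy : y i
    · exact absurd (hx.trans hy.symm) hi
    · simp
    · simp
    · exact absurd (hx.trans hy.symm) hi

private theorem baseB_inv {α : Type} [Fintype α] [DecidableEq α] {g : (α → Bool) → ℝ}
    (hg : ∀ S, fc g S = 0) (y : α → Bool) : g y = 0 := by
  have h1 : ∑ S : Finset α, fc g S * (chi S y : ℝ) = (2 : ℝ) ^ (Fintype.card α) * g y := by
    unfold fc
    calc ∑ S : Finset α, (∑ x, g x * (chi S x : ℝ)) * (chi S y : ℝ)
        = ∑ S : Finset α, ∑ x, g x * ((chi S x : ℝ) * (chi S y : ℝ)) := by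
          refine Finset.sum_congr rfl fun S _ => ?_
          rw [Finset.sum_mul]
          exact Finset.sum_congr rfl fun x _ => by ring
      _ = ∑ x, ∑ S : Finset α, g x * ((chi S x : ℝ) * (chi S y : ℝ)) := Finset.sum_comm
      _ = ∑ x, g x * (if x = y then (2 : ℝ) ^ (Fintype.card α) else 0) := by
          refine Finset.sum_congr rfl fun x _ => ?_
          rw [← Finset.mul_sum, baseB_orth]
      _ = (2 : ℝ) ^ (Fintype.card α) * g y := by
          simp [mul_comm]
  have h2 : ∑ S : Finset α, fc g S * (chi S y : ℝ) = 0 :=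
    Finset.sum_eq_zero fun S _ => by rw [hg S, zero_mul]
  rw [h2] at h1
  have h3 : (2 : ℝ) ^ (Fintype.card α) ≠ 0 := by positivity
  exact (mul_eq_zero.1 h1.symm).resolve_left h3

private theorem baseB_deg {ι : Type} [Fintype ι] [DecidableEq ι] {m s : ℕ} (hms : m + 2 ≤ s)
    {M : ℝ} {w : (ι → Bool) → ℤ} (hw : w ∈ WS ι m ((1 / 2) ^ s / 4096) M) :
    DegLe m (fun x => (w x : ℝ)) := by
  obtain ⟨u, hdeg, hu, _⟩ := hw
  rw [degLe_iff_fc]
  intro S' hS'
  obtain ⟨S, hSS', hS⟩ := Finset.exists_subset_card_eq (show m + 1 ≤ S'.card from hS')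
  have h1 : ∀ z, der S (fun x => u x + (w x : ℝ)) z = 0 := by
    intro z
    refine baseB_inv (g := der S (fun x => u x + (w x : ℝ))) (fun U => ?_) z
    rw [fc_der]
    refine degLe_iff_fc.1 hdeg _ ?_
    have h2 : S.card ≤ (S ∪ U.map (Function.Embedding.subtype _)).card :=
      Finset.card_le_card Finset.subset_union_left
    omega
  have h2 : ∀ z, derZ S w z = 0 := by
    intro z
    have h3 : ((derZ S w z : ℤ) : ℝ) = -der S u z := by
      rw [derZ_cast]
      have h4 := h1 z
      rw [der_add] at h4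
      linarith
    have h5 : |((derZ S w z : ℤ) : ℝ)| < 1 := by
      rw [h3, abs_neg]
      refine (der_le S hu z).trans_lt ?_
      rw [hS]
      have h6 : ((1 : ℝ) / 2) ^ s ≤ (1 / 2) ^ (m + 2) :=
        pow_le_pow_of_le_one (by norm_num) (by norm_num) hms
      have h7 : (2 : ℝ) ^ (m + 1) * (1 / 2) ^ (m + 2) = 1 / 2 := by
        rw [pow_succ (1 / 2 : ℝ) (m + 1), ← mul_assoc, ← mul_pow]
        norm_num
      have h8 : (2 : ℝ) ^ (m + 1) * (1 / 2) ^ s ≤ 1 / 2 :=
        (mul_le_mul_of_nonneg_left h6 (by positivity)).trans h7.le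
      calc (2 : ℝ) ^ (m + 1) * ((1 / 2) ^ s / 4096) = ((2 : ℝ) ^ (m + 1) * (1 / 2) ^ s) / 4096 := by
            ring
        _ ≤ (1 / 2) / 4096 := by gcongr
        _ < 1 := by norm_num
    rw [← Int.cast_abs] at h5
    have h9 : |derZ S w z| < 1 := by exact_mod_cast h5
    exact Int.abs_lt_one_iff.1 h9
  have h3 : fc (der S (fun x => (w x : ℝ))) ((S' \ S).subtype fun i => i ∉ S) = 0 := by
    unfold fc
    refine Finset.sum_eq_zero fun z _ => ?_
    rw [← derZ_cast, h2, Int.cast_zero, zero_mul]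
  rw [fc_der, Finset.subtype_map] at h3
  have h4 : S ∪ (S' \ S).filter (fun i => i ∉ S) = S' := by
    ext i
    simp only [Finset.mem_union, Finset.mem_filter, Finset.mem_sdiff]
    constructor
    · rintro (h | h)
      · exact hSS' h
      · exact h.1.1
    · intro h
      by_cases hi : i ∈ S
      · exact Or.inl hi
      · exact Or.inr ⟨⟨h, hi⟩, hi⟩
  rwa [h4] at h3

/-- If `w ∈ WS m (2^(-s)/4096) M` with `s ≥ m + 2` then `w` has degree at most `m`: for
`|S| = m + 1`, `der S (u + w) = 0` (all its Fourier coefficients vanish, `fc_der`; use that a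
function with `fc = 0` vanishes) and `|der S u| ≤ 2^(m+1) 2^(-s)/4096 < 1`, so the integer
`derZ S w` is `0`; so `fc w S' = 0` for all `S' ⊇ S` (`fc_der`).  So all elements are equivalent
and `|P| ≤ 1 = exp 0`. -/
theorem partIB0 : PartIB0 := by
  intro ι _ _ m s hms M _ P hP hPe
  have h1 : P.card ≤ 1 := by
    rw [Finset.card_le_one]
    intro w hw w' hw'
    refine hPe w hw w' hw' ?_
    unfold Eqv
    rw [degLe_iff_fc]
    intro S hS
    rw [fc_sub, degLe_iff_fc.1 (baseB_deg hms (hP w hw)) S hS,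
      degLe_iff_fc.1 (baseB_deg hms (hP w' hw')) S hS, sub_zero]
  rw [zero_mul, Real.exp_zero]
  exact_mod_cast h1

end P047F
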