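import Vale.Agent.Lib.P047F.IB.Pars

/-!
# P047 Part I.B: minimum energy
-/

open Finset

namespace P047F

variable {ι : Type} [Fintype ι] [DecidableEq ι]

private theorem minE_degLe_sub {κ : Type} [Fintype κ] [DecidableEq κ] {m : ℕ}
    {f g : (κ → Bool) → ℝ} (hf : DegLe m f) (hg : DegLe m g) : DegLe m (fun x => f x - g x) := by
  intro S hS
  have h1 := fc_sub f g S
  have h2 : fc f S = 0 := hf S hS
  have h3 : fc g S = 0 := hg S hS
  rw [h2, h3, sub_zero] at h1
  exact h1

private theorem minE_exists {α : Type} (s : Finset α) (f : α → ℝ) {B : ℝ}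
    (hB : ∑ a ∈ s, f a ≤ s.card * B) (hs : s.Nonempty) : ∃ a ∈ s, f a ≤ B := by
  by_contra hcon
  push Not at hcon
  have h1 : ∑ _a ∈ s, B < ∑ a ∈ s, f a := Finset.sum_lt_sum_of_nonempty hs hcon
  rw [Finset.sum_const, nsmul_eq_mul] at h1
  linarith

/-- minimum energy: if `w, w'` are inequivalent elements of `WS m (2^(-t-1)/4096) M` then
`2 ≤ exp (F 2^(t+2) M)`.  Let `S` be of maximal size with `fc (w - w') S ≠ 0`, `|S| = j > m`;
`u = u_w - u_w'` has degree at most `j`, `Σ u² ≤ 4M`; by `der_energy` (restricted to `T ⊆ S`) some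
`T ⊆ S`, `|T| = t`, has `Σ_z (der T u z)^2 ≤ 2^t 4 M`, and `derZ T (w - w')` is in
`WS (m-t) (1/4096) (2^(t+2) M)`, not equivalent to `0`.  So `{0, derZ T (w - w')}` gives the
claim. -/
theorem min_energy {m t : ℕ} (htm : t ≤ m) {F : ℝ}
    (hC : ∀ (κ : Type) [Fintype κ] [DecidableEq κ], Fintype.card κ + t = Fintype.card ι →
      Cnt κ (m - t) (1 / 4096) F) {M : ℝ} (hM : 1 ≤ M) {w w' : (ι → Bool) → ℤ}
    (hw : w ∈ WS ι m ((1 / 2) ^ (t + 1) / 4096) M) (hw' : w' ∈ WS ι m ((1 / 2) ^ (t + 1) / 4096) M)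
    (hne : ¬ Eqv m w w') : 2 ≤ Real.exp (F * (2 ^ (t + 2) * M)) := by
  classical
  obtain ⟨u1, hd1, hb1, he1⟩ := hw
  obtain ⟨u2, hd2, hb2, he2⟩ := hw'
  -- the difference
  set u : (ι → Bool) → ℝ := fun x => u1 x - u2 x with hu
  set D : (ι → Bool) → ℤ := fun x => w x - w' x with hD
  have hdeg : DegLe m (fun x => u x + (D x : ℝ)) := by
    have h1 := minE_degLe_sub hd1 hd2
    have h2 : (fun x => u1 x + (w x : ℝ) - (u2 x + (w' x : ℝ))) =
        fun x => u x + (D x : ℝ) := by
      funext x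
      simp only [hu, hD]
      push_cast
      ring
    rwa [h2] at h1
  have hub : ∀ x, |u x| ≤ 2 * ((1 / 2) ^ (t + 1) / 4096) := by
    intro x
    have h1 := hb1 x
    have h2 := hb2 x
    have h3 : |u1 x - u2 x| ≤ |u1 x| + |u2 x| := abs_sub _ _
    change |u1 x - u2 x| ≤ _
    linarith
  have hue : ∑ x, u x ^ 2 ≤ 4 * M := by
    have h1 : ∑ x, u x ^ 2 ≤ ∑ x, (2 * u1 x ^ 2 + 2 * u2 x ^ 2) := by
      refine Finset.sum_le_sum fun x _ => ?_
      simp only [hu]
      nlinarith [sq_nonneg (u1 x + u2 x)]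
    rw [Finset.sum_add_distrib, ← Finset.mul_sum, ← Finset.mul_sum] at h1
    linarith
  have hnD : ¬ DegLe m (fun x => (D x : ℝ)) := by
    intro h
    apply hne
    unfold Eqv
    have h2 : (fun x => (D x : ℝ)) = fun x => (w x : ℝ) - (w' x : ℝ) := by
      funext x
      simp only [hD]
      push_cast
      ring
    rwa [h2] at h
  -- the set `S` of maximal size
  rw [degLe_iff_fc] at hnD
  push Not at hnD
  obtain ⟨S0, hS0, hS0'⟩ := hnD
  obtain ⟨S, hS, hmax⟩ := Finset.exists_max_image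
    ((univ : Finset (Finset ι)).filter fun S => m < S.card ∧ fc (fun x => (D x : ℝ)) S ≠ 0)
    (fun S => S.card) ⟨S0, by simp [hS0, hS0']⟩
  rw [Finset.mem_filter] at hS
  obtain ⟨-, hSm, hSfc⟩ := hS
  have hDz : ∀ S' : Finset ι, S.card < S'.card → fc (fun x => (D x : ℝ)) S' = 0 := by
    intro S' hS'
    by_contra hne'
    have := hmax S' (by simp only [Finset.mem_filter, Finset.mem_univ, true_and]
                        exact ⟨hSm.trans hS', hne'⟩)
    omega
  have hudeg : DegLe S.card u := by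
    intro S' hS'
    have h1 : fc (fun x => u x + (D x : ℝ)) S' = 0 := hdeg S' (hSm.trans hS')
    rw [fc_add u (fun x => (D x : ℝ)) S', hDz S' hS', add_zero] at h1
    exact h1
  -- the set `T`
  have hen := der_energy t hudeg
  have hsub : powersetCard t S ⊆ powersetCard t (univ : Finset ι) :=
    Finset.powersetCard_mono (Finset.subset_univ S)
  have hen2 : ∑ T ∈ powersetCard t S, ∑ z, der T u z ^ 2 ≤
      ((powersetCard t S).card : ℝ) * (2 ^ (t + 2) * M) := by
    have h1 : ∑ T ∈ powersetCard t S, ∑ z, der T u z ^ 2 ≤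
        ∑ T ∈ powersetCard t (univ : Finset ι), ∑ z, der T u z ^ 2 :=
      Finset.sum_le_sum_of_subset_of_nonneg hsub fun T _ _ =>
        Finset.sum_nonneg fun z _ => sq_nonneg _
    have h2 : 2 ^ t * (S.card.choose t : ℝ) * ∑ x, u x ^ 2 ≤
        2 ^ t * (S.card.choose t : ℝ) * (4 * M) :=
      mul_le_mul_of_nonneg_left hue (by positivity)
    rw [Finset.card_powersetCard]
    refine (h1.trans (hen.trans h2)).trans (le_of_eq ?_)
    ring
  have htS : t ≤ S.card := by omega
  obtain ⟨T, hT, hTe⟩ := minE_exists (powersetCard t S) (fun T => ∑ z, der T u z ^ 2) hen2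
    (Finset.powersetCard_nonempty.2 htS)
  rw [Finset.mem_powersetCard] at hT
  obtain ⟨hTS, hTt⟩ := hT
  have hcard : Fintype.card {i // i ∉ T} + t = Fintype.card ι := by
    rw [Fintype.card_subtype_compl, Fintype.card_coe, hTt]
    have := Finset.card_le_univ T
    omega
  -- membership
  set d : ({i // i ∉ T} → Bool) → ℤ := derZ T D with hd
  have hdc : ∀ z, ((d z : ℤ) : ℝ) = der T (fun x => (D x : ℝ)) z := fun z => derZ_cast T D z
  have hnd : ¬ DegLe (m - t) (fun z => (d z : ℝ)) := by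
    intro h
    have h1 : (fun z => (d z : ℝ)) = der T (fun x => (D x : ℝ)) := funext hdc
    rw [h1] at h
    exact hSfc ((degLe_der_iff htm hTt _).1 h S hTS hSm)
  have hM' : (1 : ℝ) ≤ 2 ^ (t + 2) * M := by
    have h1 : (1 : ℝ) ≤ 2 ^ (t + 2) := one_le_pow₀ (by norm_num)
    nlinarith
  have m0 : (0 : ({i // i ∉ T} → Bool) → ℤ) ∈ WS {i // i ∉ T} (m - t) (1 / 4096)
      (2 ^ (t + 2) * M) := by
    refine ⟨fun _ => 0, ?_, fun x => ?_, ?_⟩
    · intro S' _
      simp
    · rw [abs_zero]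
      norm_num
    · simp only [ne_eq, OfNat.ofNat_ne_zero, not_false_eq_true, zero_pow, Finset.sum_const_zero]
      linarith
  have m1 : d ∈ WS {i // i ∉ T} (m - t) (1 / 4096) (2 ^ (t + 2) * M) := by
    refine ⟨der T u, ?_, fun z => ?_, hTe⟩
    · have h1 : (fun z => der T u z + (d z : ℝ)) = der T (fun x => u x + (D x : ℝ)) := by
        funext z
        rw [hdc, der_add]
      rw [h1, degLe_der_iff htm hTt]
      intro S' _ hS'
      exact hdeg S' hS'
    · refine (der_le T hub z).trans (le_of_eq ?_)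
      rw [hTt, pow_succ]
      have h2 : (2 : ℝ) ^ t * (1 / 2) ^ t = 1 := by
        rw [← mul_pow]
        norm_num
      calc (2 : ℝ) ^ t * (2 * ((1 / 2) ^ t * (1 / 2) / 4096)) =
          (2 ^ t * (1 / 2) ^ t) * (1 / 4096) := by ring
        _ = 1 / 4096 := by rw [h2, one_mul]
  have hneq : (0 : ({i // i ∉ T} → Bool) → ℤ) ≠ d := by
    intro h
    apply hnd
    rw [← h]
    intro S' _
    simp
  have hfin := hC {i // i ∉ T} hcard (2 ^ (t + 2) * M) hM' {0, d} (by
    intro v hv
    rw [Finset.mem_insert, Finset.mem_singleton] at hv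
    rcases hv with rfl | rfl
    · exact m0
    · exact m1) (by
    intro v hv v' hv' heq
    rw [Finset.mem_insert, Finset.mem_singleton] at hv hv'
    rcases hv with rfl | rfl <;> rcases hv' with rfl | rfl
    · rfl
    · exfalso
      apply hnd
      intro S' hS'
      have h1 := heq S' hS'
      have h2 : ∑ x, ((((0 : ({i // i ∉ T} → Bool) → ℤ) x : ℤ) : ℝ) - (d x : ℝ)) *
          (chi S' x : ℝ) = - ∑ x, (d x : ℝ) * (chi S' x : ℝ) := by
        rw [← Finset.sum_neg_distrib]
        refine Finset.sum_congr rfl fun x _ => ?_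
        rw [Pi.zero_apply, Int.cast_zero]
        ring
      rw [h2] at h1
      linarith
    · exfalso
      apply hnd
      intro S' hS'
      have h1 := heq S' hS'
      have h2 : ∑ x, ((d x : ℝ) - (((0 : ({i // i ∉ T} → Bool) → ℤ) x : ℤ) : ℝ)) *
          (chi S' x : ℝ) = ∑ x, (d x : ℝ) * (chi S' x : ℝ) := by
        refine Finset.sum_congr rfl fun x _ => ?_
        rw [Pi.zero_apply, Int.cast_zero, sub_zero]
      rw [h2] at h1
      exact h1
    · rfl)
  rw [Finset.card_pair hneq] at hfin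
  exact_mod_cast hfin

end P047F
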