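import Vale.Agent.Lib.P047F.IB.Iter
import Vale.Agent.Lib.P047F.IB.MinE

/-!
# P047 Part I.B: conclusion
-/

open Finset

namespace P047F

/-- `iter_rounds` with `j = n` gives `|P| ≤ (4 exp κE)^K`; if `|P| ≥ 2` then `min_energy` gives
`4 ≤ exp (2 F 2^(t+2) M)`; add the exponents (exact constant).  If `|P| ≤ 1` the exponent is
nonnegative. -/
theorem partIB : PartIB := by
  intro ι _ _ m t K A0 F h5 _ htm hmn hA0 hK hF0 hF hC M hM P hP hinj
  set n : ℕ := Fintype.card ι with hn
  have hA0' : 0 ≤ A0 := zero_le_one.trans hA0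
  have hM' : 0 ≤ M := zero_le_one.trans hM
  rcases Nat.lt_or_ge P.card 2 with hcard | hcard
  · have h1 : (P.card : ℝ) ≤ 1 := by exact_mod_cast Nat.le_of_lt_succ hcard
    refine h1.trans (Real.one_le_exp ?_)
    positivity
  · obtain ⟨w, hw, w', hw', hne⟩ := Finset.one_lt_card.1 hcard
    have hne' : ¬ Eqv m w w' := fun h => hne (hinj w hw w' hw' h)
    have h2 := min_energy htm hC hM (hP w hw) (hP w' hw') hne'
    have h3 := iter_rounds h5 htm hF0 hF hC hA0 hM K n hmn le_rfl hK P hP hinj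
      (fun w _ w' _ T hT => absurd hT (not_lt.2 (Finset.card_le_univ T)))
    refine h3.trans ?_
    have h4 : (4 : ℝ) ≤ Real.exp (2 * (F * (2 ^ (t + 2) * M))) := by
      have h5 : Real.exp (2 * (F * (2 ^ (t + 2) * M))) =
          Real.exp (F * (2 ^ (t + 2) * M)) ^ 2 := by
        rw [← Real.exp_nat_mul]
        norm_num
      rw [h5]
      nlinarith
    rw [← hn]
    have h5 : (4 * Real.exp ((2 * (n : ℝ) + 3) * F * (64 * (n : ℝ) * 2 ^ t * A0 * M))) ^ K ≤
        (Real.exp (2 * (F * (2 ^ (t + 2) * M))) *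
          Real.exp ((2 * (n : ℝ) + 3) * F * (64 * (n : ℝ) * 2 ^ t * A0 * M))) ^ K := by
      refine pow_le_pow_left₀ (by positivity) ?_ K
      exact mul_le_mul_of_nonneg_right h4 (Real.exp_pos _).le
    refine h5.trans (le_of_eq ?_)
    rw [← Real.exp_add, ← Real.exp_nat_mul]
    congr 1
    rw [pow_add]
    ring

end P047F
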