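import Mathlib

/-!
# P047 Part I.B: the counting lemma (abstract)
-/

open Finset

namespace P047F

/-- the induction for `count_one` -/
private theorem Count_ind {α : Type} (e : α → ℝ) (he : ∀ c, 0 ≤ e c) {F : ℝ}
    (hF0 : 0 ≤ F) (hF : F < Real.log 2) (p : ℕ) (l : ℕ) : ∀ X : Finset α, X.card = l + 1 →
    (∀ M : ℝ, 1 ≤ M → ((X.filter (fun c => e c ≤ M)).card : ℝ) ≤ Real.exp (F * M)) →
    ∑ c ∈ X, Real.exp (-(((p : ℝ) + 2) * F * e c)) ≤
      1 + (1 / 2) ^ p * (1 - 1 / ((l : ℝ) + 1)) := by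
  classical
  induction l with
  | zero =>
    intro X hX _
    obtain ⟨c, rfl⟩ := Finset.card_eq_one.1 hX
    rw [Finset.sum_singleton]
    have h1 : Real.exp (-(((p : ℝ) + 2) * F * e c)) ≤ 1 := by
      rw [Real.exp_le_one_iff]
      have := mul_nonneg (mul_nonneg (by positivity : (0 : ℝ) ≤ (p : ℝ) + 2) hF0) (he c)
      linarith
    simpa using h1
  | succ l ih =>
    intro X hX hM
    have hne : X.Nonempty := Finset.card_pos.1 (by omega)
    obtain ⟨c, hc, hmax⟩ := Finset.exists_max_image X e hne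
    have hcard : (X.erase c).card = l + 1 := by
      rw [Finset.card_erase_of_mem hc, hX]
      rfl
    have h1 := ih (X.erase c) hcard (fun M h => by
      refine le_trans ?_ (hM M h)
      exact_mod_cast Finset.card_le_card
        (Finset.filter_subset_filter _ (Finset.erase_subset c X)))
    rw [← Finset.add_sum_erase X _ hc]
    -- the size of the largest element
    have h2 := hM (max 1 (e c)) (le_max_left _ _)
    have h3 : X.filter (fun x => e x ≤ max 1 (e c)) = X :=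
      Finset.filter_true_of_mem fun x hx => (hmax x hx).trans (le_max_right _ _)
    rw [h3, hX] at h2
    push_cast at h2
    have hl : (0 : ℝ) ≤ l := Nat.cast_nonneg l
    have h4 : 1 < e c := by
      by_contra hcon
      rw [max_eq_left (not_lt.1 hcon), mul_one] at h2
      have h5 : Real.exp F < 2 := by
        rw [← Real.exp_log (two_pos : (0 : ℝ) < 2)]
        exact Real.exp_lt_exp.2 hF
      linarith
    rw [max_eq_right h4.le] at h2
    have h6 : Real.exp (-(((p : ℝ) + 2) * F * e c)) = (Real.exp (F * e c))⁻¹ ^ (p + 2) := by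
      rw [← Real.exp_neg, ← Real.exp_nat_mul]
      congr 1
      push_cast
      ring
    have hpos : (0 : ℝ) < (l : ℝ) + 1 + 1 := by linarith
    have h7 : (Real.exp (F * e c))⁻¹ ≤ ((l : ℝ) + 1 + 1)⁻¹ := inv_anti₀ hpos h2
    have h8 : (Real.exp (F * e c))⁻¹ ^ (p + 2) ≤ ((l : ℝ) + 1 + 1)⁻¹ ^ (p + 2) :=
      pow_le_pow_left₀ (inv_nonneg.2 (Real.exp_pos _).le) h7 _
    have h9 : ((l : ℝ) + 1 + 1)⁻¹ ^ (p + 2) ≤
        (1 / 2) ^ p * (1 / ((l : ℝ) + 1) - 1 / ((l : ℝ) + 1 + 1)) := by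
      rw [pow_add]
      have h10 : ((l : ℝ) + 1 + 1)⁻¹ ^ p ≤ (1 / 2) ^ p := by
        refine pow_le_pow_left₀ (inv_nonneg.2 hpos.le) ?_ _
        rw [one_div]
        exact inv_anti₀ two_pos (by linarith)
      have h11 : ((l : ℝ) + 1 + 1)⁻¹ ^ 2 ≤ 1 / ((l : ℝ) + 1) - 1 / ((l : ℝ) + 1 + 1) := by
        have e1 : 1 / ((l : ℝ) + 1) - 1 / ((l : ℝ) + 1 + 1) =
            1 / (((l : ℝ) + 1) * ((l : ℝ) + 1 + 1)) := by
          field_simp
          ring
        rw [e1, inv_pow, ← one_div]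
        refine one_div_le_one_div_of_le (by positivity) ?_
        nlinarith
      exact mul_le_mul h10 h11 (by positivity) (by positivity)
    rw [h6]
    push_cast
    have h12 : (1 / 2 : ℝ) ^ p * (1 - 1 / ((l : ℝ) + 1)) +
        (1 / 2) ^ p * (1 / ((l : ℝ) + 1) - 1 / ((l : ℝ) + 1 + 1)) =
        (1 / 2) ^ p * (1 - 1 / ((l : ℝ) + 1 + 1)) := by ring
    linarith

/-- `Σ_c exp (-(p+2) F e(c)) ≤ 1 + 2^(-p)`.  Induction on `|X| ≥ 1`, with the stronger bound
`1 + 2^(-p) (1 - 1/|X|)`: remove the element `c` of largest `e`; if `|X| = l ≥ 2` then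
`2 ≤ l ≤ exp (F max(1, e c))`, so `e c > 1` (as `F < log 2`) and
`exp (-(p+2) F e(c)) ≤ l^(-(p+2)) ≤ 2^(-p) / (l (l-1))`. -/
theorem count_one {α : Type} (X : Finset α) (e : α → ℝ) (he : ∀ c, 0 ≤ e c) {F : ℝ}
    (hF0 : 0 ≤ F) (hF : F < Real.log 2)
    (hX : ∀ M : ℝ, 1 ≤ M → ((X.filter (fun c => e c ≤ M)).card : ℝ) ≤ Real.exp (F * M)) (p : ℕ) :
    ∑ c ∈ X, Real.exp (-(((p : ℝ) + 2) * F * e c)) ≤ 1 + (1 / 2) ^ p := by
  rcases Nat.eq_zero_or_pos X.card with h | h
  · rw [Finset.card_eq_zero.1 h, Finset.sum_empty]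
    positivity
  · obtain ⟨l, hl⟩ : ∃ l, X.card = l + 1 := ⟨X.card - 1, by omega⟩
    refine (Count_ind e he hF0 hF p l X hl hX).trans ?_
    have h1 : (0 : ℝ) ≤ 1 / ((l : ℝ) + 1) := by positivity
    have h2 : (0 : ℝ) ≤ (1 / 2) ^ p := by positivity
    nlinarith

/-- number of records of total energy at most `E` (`exp (κ (E - Σ e)) ≥ 1` on records, product of
`count_one` with `p + 1` in place of `p`, and `(1 + 2^(-(p+1)))^R ≤ exp (1/2) ≤ 2`) -/
theorem count_records {α : Type} {R p : ℕ} (hR : R ≤ 2 ^ p) (X : Fin R → Finset α)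
    (e : Fin R → α → ℝ) (he : ∀ a c, 0 ≤ e a c) {F : ℝ} (hF0 : 0 ≤ F) (hF : F < Real.log 2)
    (hX : ∀ a, ∀ M : ℝ, 1 ≤ M →
      (((X a).filter (fun c => e a c ≤ M)).card : ℝ) ≤ Real.exp (F * M)) (E : ℝ) :
    (((Fintype.piFinset X).filter (fun c => ∑ a, e a (c a) ≤ E)).card : ℝ) ≤
      2 * Real.exp (((p : ℝ) + 3) * F * E) := by
  classical
  set κ : ℝ := ((p : ℝ) + 3) * F with hκ
  have hκ0 : 0 ≤ κ := mul_nonneg (by positivity) hF0
  have h1 : (((Fintype.piFinset X).filter (fun c => ∑ a, e a (c a) ≤ E)).card : ℝ) ≤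
      ∑ c ∈ Fintype.piFinset X, Real.exp (κ * E) * ∏ a, Real.exp (-(κ * e a (c a))) := by
    rw [Finset.card_eq_sum_ones, Nat.cast_sum]
    refine (Finset.sum_le_sum (fun c hc => ?_)).trans
      (Finset.sum_le_sum_of_subset_of_nonneg (Finset.filter_subset _ _)
        (fun c _ _ => by positivity))
    have h2 := (Finset.mem_filter.1 hc).2
    rw [← Real.exp_sum, ← Real.exp_add, Nat.cast_one]
    refine Real.one_le_exp ?_
    rw [Finset.sum_neg_distrib, ← Finset.mul_sum]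
    have := mul_le_mul_of_nonneg_left h2 hκ0
    linarith
  have h3 : ∑ c ∈ Fintype.piFinset X, ∏ a, Real.exp (-(κ * e a (c a))) =
      ∏ a, ∑ c ∈ X a, Real.exp (-(κ * e a c)) :=
    (Finset.prod_univ_sum X (fun a c => Real.exp (-(κ * e a c)))).symm
  have h4 : ∀ a, ∑ c ∈ X a, Real.exp (-(κ * e a c)) ≤ Real.exp ((1 / 2) ^ (p + 1)) := by
    intro a
    have h5 := count_one (X a) (e a) (he a) hF0 hF (hX a) (p + 1)
    have e1 : ∀ c, -(((p + 1 : ℕ) : ℝ) + 2) * F * e a c = -(κ * e a c) := by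
      intro c
      rw [hκ]
      push_cast
      ring
    have e2 : ∑ c ∈ X a, Real.exp (-((((p + 1 : ℕ) : ℝ) + 2) * F * e a c)) =
        ∑ c ∈ X a, Real.exp (-(κ * e a c)) := by
      refine Finset.sum_congr rfl fun c _ => ?_
      congr 1
      rw [← e1 c]
      ring
    rw [e2] at h5
    refine h5.trans ?_
    have := Real.add_one_le_exp ((1 / 2 : ℝ) ^ (p + 1))
    linarith
  have h6 : ∏ a, ∑ c ∈ X a, Real.exp (-(κ * e a c)) ≤ 2 := by
    refine (Finset.prod_le_prod (fun a _ => Finset.sum_nonneg fun c _ => (Real.exp_pos _).le)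
      (fun a _ => h4 a)).trans ?_
    rw [Finset.prod_const, Finset.card_univ, Fintype.card_fin, ← Real.exp_nat_mul]
    have h7 : (R : ℝ) * (1 / 2) ^ (p + 1) ≤ 1 / 2 := by
      have h8 : (R : ℝ) ≤ 2 ^ p := by exact_mod_cast hR
      calc (R : ℝ) * (1 / 2) ^ (p + 1) ≤ 2 ^ p * (1 / 2) ^ (p + 1) :=
            mul_le_mul_of_nonneg_right h8 (by positivity)
        _ = 1 / 2 := by
          rw [pow_succ, ← mul_assoc, ← mul_pow]
          norm_num
    have h9 : Real.exp (1 / 2) ≤ 2 := by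
      have h10 : Real.exp (1 / 2) * Real.exp (1 / 2) = Real.exp 1 := by
        rw [← Real.exp_add]
        norm_num
      have h11 := Real.exp_one_lt_d9
      have h12 := Real.exp_pos (1 / 2)
      nlinarith
    exact (Real.exp_le_exp.2 h7).trans h9
  calc (((Fintype.piFinset X).filter (fun c => ∑ a, e a (c a) ≤ E)).card : ℝ)
      ≤ ∑ c ∈ Fintype.piFinset X, Real.exp (κ * E) * ∏ a, Real.exp (-(κ * e a (c a))) := h1
    _ = Real.exp (κ * E) * ∏ a, ∑ c ∈ X a, Real.exp (-(κ * e a c)) := by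
      rw [← Finset.mul_sum, h3]
    _ ≤ Real.exp (κ * E) * 2 := mul_le_mul_of_nonneg_left h6 (Real.exp_pos _).le
    _ = 2 * Real.exp (κ * E) := mul_comm _ _

end P047F
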