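import Vale.Agent.Lib.P047F.I.IDefs

/-!
# P047 Part I.B: coordinate derivatives (definitions and basic facts)
`der T g` is the mixed coordinate derivative in the directions of `T` (up to the sign `(-1)^|T|`),
a function on the cube over `ι ∖ T`; `fc g S` is the unnormalised Fourier coefficient.
-/

open Finset

namespace P047F

variable {ι : Type} [Fintype ι] [DecidableEq ι]

/-- the point of the cube with coordinates `y` on `T` and `z` off `T` -/
def glue (T : Finset ι) (y : {i // i ∈ T} → Bool) (z : {i // i ∉ T} → Bool) (i : ι) : Bool :=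
  if h : i ∈ T then y ⟨i, h⟩ else z ⟨i, h⟩

/-- coordinate derivative -/
noncomputable def der (T : Finset ι) (g : (ι → Bool) → ℝ) (z : {i // i ∉ T} → Bool) : ℝ :=
  ∑ y : {i // i ∈ T} → Bool, (chi Finset.univ y : ℝ) * g (glue T y z)

/-- coordinate derivative of an integer valued function -/
def derZ (T : Finset ι) (w : (ι → Bool) → ℤ) (z : {i // i ∉ T} → Bool) : ℤ :=
  ∑ y : {i // i ∈ T} → Bool, chi Finset.univ y * w (glue T y z)

/-- unnormalised Fourier coefficient -/
noncomputable def fc (g : (ι → Bool) → ℝ) (S : Finset ι) : ℝ := ∑ x, g x * (chi S x : ℝ)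

theorem degLe_iff_fc {m : ℕ} {g : (ι → Bool) → ℝ} :
    DegLe m g ↔ ∀ S : Finset ι, m < S.card → fc g S = 0 := Iff.rfl

theorem Der_sgn_abs (b : Bool) : |((if b then (-1 : ℤ) else 1 : ℤ) : ℝ)| = 1 := by
  cases b <;> simp

theorem Der_chi_abs {κ : Type} (S : Finset κ) (x : κ → Bool) : |(chi S x : ℝ)| = 1 := by
  unfold chi
  rw [Int.cast_prod, Finset.abs_prod]
  exact Finset.prod_eq_one fun i _ => Der_sgn_abs (x i)

theorem Der_disj (T : Finset ι) (U : Finset {i // i ∉ T}) :
    Disjoint T (U.map (Function.Embedding.subtype _)) := by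
  rw [Finset.disjoint_left]
  intro i hi h
  obtain ⟨j, _, rfl⟩ := Finset.mem_map.1 h
  exact j.2 hi

theorem Der_chi_glue (T : Finset ι) (U : Finset {i // i ∉ T}) (y : {i // i ∈ T} → Bool)
    (z : {i // i ∉ T} → Bool) :
    chi (T ∪ U.map (Function.Embedding.subtype _)) (glue T y z) =
      chi Finset.univ y * chi U z := by
  unfold chi
  rw [Finset.prod_union (Der_disj T U), Finset.prod_map]
  congr 1
  · rw [← Finset.prod_coe_sort]
    refine Finset.prod_congr rfl fun i _ => ?_
    have : glue T y z i = y i := by
      unfold glue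
      rw [dif_pos i.2]
    rw [this]
  · refine Finset.prod_congr rfl fun i _ => ?_
    have : glue T y z (Function.Embedding.subtype _ i) = z i := by
      unfold glue
      rw [dif_neg (show ¬ (Function.Embedding.subtype _ i : ι) ∈ T from i.2)]
      rfl
    rw [this]

theorem derZ_cast (T : Finset ι) (w : (ι → Bool) → ℤ) (z : {i // i ∉ T} → Bool) :
    ((derZ T w z : ℤ) : ℝ) = der T (fun x => (w x : ℝ)) z := by
  unfold derZ der
  push_cast
  rfl

theorem der_add (T : Finset ι) (f g : (ι → Bool) → ℝ) (z : {i // i ∉ T} → Bool) :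
    der T (fun x => f x + g x) z = der T f z + der T g z := by
  unfold der
  rw [← Finset.sum_add_distrib]
  exact Finset.sum_congr rfl fun y _ => by ring

theorem der_sub (T : Finset ι) (f g : (ι → Bool) → ℝ) (z : {i // i ∉ T} → Bool) :
    der T (fun x => f x - g x) z = der T f z - der T g z := by
  unfold der
  rw [← Finset.sum_sub_distrib]
  exact Finset.sum_congr rfl fun y _ => by ring

theorem fc_sub (f g : (ι → Bool) → ℝ) (S : Finset ι) :
    fc (fun x => f x - g x) S = fc f S - fc g S := by
  unfold fc
  rw [← Finset.sum_sub_distrib]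
  exact Finset.sum_congr rfl fun y _ => by ring

theorem fc_add (f g : (ι → Bool) → ℝ) (S : Finset ι) :
    fc (fun x => f x + g x) S = fc f S + fc g S := by
  unfold fc
  rw [← Finset.sum_add_distrib]
  exact Finset.sum_congr rfl fun y _ => by ring

/-- sup norm bound -/
theorem der_le (T : Finset ι) {g : (ι → Bool) → ℝ} {ρ : ℝ} (hg : ∀ x, |g x| ≤ ρ)
    (z : {i // i ∉ T} → Bool) : |der T g z| ≤ 2 ^ T.card * ρ := by
  have hρ : 0 ≤ ρ := (abs_nonneg _).trans (hg (fun _ => true))
  unfold der
  refine (Finset.abs_sum_le_sum_abs _ _).trans ?_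
  calc ∑ y : {i // i ∈ T} → Bool, |(chi Finset.univ y : ℝ) * g (glue T y z)|
      ≤ ∑ _y : {i // i ∈ T} → Bool, ρ := by
        refine Finset.sum_le_sum fun y _ => ?_
        rw [abs_mul, Der_chi_abs, one_mul]
        exact hg _
    _ = 2 ^ T.card * ρ := by
        rw [Finset.sum_const, nsmul_eq_mul, Finset.card_univ, Fintype.card_fun, Fintype.card_bool,
          Fintype.card_coe]
        push_cast
        rfl

/-- Fourier coefficients of a derivative (sum over `z` and `y` is a sum over the whole cube) -/
theorem fc_der (T : Finset ι) (g : (ι → Bool) → ℝ) (U : Finset {i // i ∉ T}) :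
    fc (der T g) U = fc g (T ∪ U.map (Function.Embedding.subtype _)) := by
  unfold fc
  rw [← (Equiv.piEquivPiSubtypeProd (fun i => i ∈ T) (fun _ => Bool)).symm.sum_comp
    (fun x => g x * (chi (T ∪ U.map (Function.Embedding.subtype _)) x : ℝ)),
    Fintype.sum_prod_type_right]
  refine Finset.sum_congr rfl fun z _ => ?_
  unfold der
  rw [Finset.sum_mul]
  refine Finset.sum_congr rfl fun y _ => ?_
  have h := Der_chi_glue T U y z
  have h2 : (Equiv.piEquivPiSubtypeProd (fun i => i ∈ T) (fun _ => Bool)).symm (y, z) =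
      glue T y z := rfl
  rw [h2, h]
  push_cast
  ring

/-- the degree of a derivative -/
theorem degLe_der_iff {m t : ℕ} (htm : t ≤ m) {T : Finset ι} (hT : T.card = t)
    (g : (ι → Bool) → ℝ) :
    DegLe (m - t) (der T g) ↔ ∀ S : Finset ι, T ⊆ S → m < S.card → fc g S = 0 := by
  rw [degLe_iff_fc]
  constructor
  · intro h S hTS hS
    have h1 : T ∪ (S.subtype (fun i => i ∉ T)).map (Function.Embedding.subtype _) = S := by
      rw [Finset.subtype_map]
      ext i
      simp only [Finset.mem_union, Finset.mem_filter]
      constructor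
      · rintro (h | h)
        · exact hTS h
        · exact h.1
      · intro hi
        by_cases hT' : i ∈ T
        · exact Or.inl hT'
        · exact Or.inr ⟨hi, hT'⟩
    have h2 := fc_der T g (S.subtype (fun i => i ∉ T))
    rw [h1] at h2
    rw [← h2]
    apply h
    have h3 := congrArg Finset.card h1
    have h4 := Finset.card_union_le T
      ((S.subtype (fun i => i ∉ T)).map (Function.Embedding.subtype _))
    rw [Finset.card_map] at h4
    omega
  · intro h U hU
    rw [fc_der]
    apply h _ Finset.subset_union_left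
    rw [Finset.card_union_of_disjoint (Der_disj T U), Finset.card_map]
    omega

end P047F
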