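import Mathlib

/-!
# P047 Part I.B: random selection of `t`-sets (abstract)
-/

open Finset

namespace P047F

namespace HitAux

/-- number of functions for which some set of size `k` is not hit -/
theorem card_nonhit {ι : Type} [Fintype ι] [DecidableEq ι] {t k : ℕ} (hk : k ≤ Fintype.card ι)
    (R : ℕ) :
    (((Fintype.piFinset fun _ : Fin R => powersetCard t (univ : Finset ι)).filter
      (fun T => ¬ ∀ S : Finset ι, S.card = k → ∃ a, T a ⊆ S)).card : ℝ) ≤
      2 ^ Fintype.card ι * (((Fintype.card ι).choose t : ℝ) - (k.choose t : ℝ)) ^ R := by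
  classical
  have hle : k.choose t ≤ (Fintype.card ι).choose t := Nat.choose_le_choose t hk
  have h1 : ((Fintype.piFinset fun _ : Fin R => powersetCard t (univ : Finset ι)).filter
      (fun T => ¬ ∀ S : Finset ι, S.card = k → ∃ a, T a ⊆ S)) ⊆
      (powersetCard k (univ : Finset ι)).biUnion (fun S => Fintype.piFinset fun _ : Fin R =>
        powersetCard t (univ : Finset ι) \ powersetCard t S) := by
    intro T hT
    rw [mem_filter] at hT
    obtain ⟨h2, h3⟩ := hT
    push Not at h3
    obtain ⟨S, hS, h4⟩ := h3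
    rw [mem_biUnion]
    refine ⟨S, ?_, ?_⟩
    · rw [mem_powersetCard]
      exact ⟨subset_univ _, hS⟩
    · rw [Fintype.mem_piFinset]
      intro a
      have h5 := Fintype.mem_piFinset.1 h2 a
      rw [mem_sdiff]
      refine ⟨h5, fun h6 => ?_⟩
      rw [mem_powersetCard] at h6
      exact h4 a h6.1
  have h2 : ∀ S ∈ powersetCard k (univ : Finset ι), (Fintype.piFinset fun _ : Fin R =>
        powersetCard t (univ : Finset ι) \ powersetCard t S).card ≤
        ((Fintype.card ι).choose t - k.choose t) ^ R := by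
    intro S hS
    rw [mem_powersetCard] at hS
    rw [Fintype.card_piFinset_const, card_sdiff_of_subset (powersetCard_mono (subset_univ S)),
      card_powersetCard, card_powersetCard, hS.2, card_univ]
  have h3 := (card_le_card h1).trans (card_biUnion_le_card_mul _ _ _ h2)
  rw [card_powersetCard, card_univ] at h3
  have h4 : (Fintype.card ι).choose k ≤ 2 ^ Fintype.card ι := Nat.choose_le_two_pow _ _
  have h5 := h3.trans (Nat.mul_le_mul_right _ h4)
  have h6 : ((((Fintype.card ι).choose t - k.choose t : ℕ)) : ℝ) =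
      ((Fintype.card ι).choose t : ℝ) - (k.choose t : ℝ) := by
    rw [Nat.cast_sub hle]
  rw [← h6]
  exact_mod_cast h5

/-- Markov's inequality -/
theorem markov {ι : Type} [Fintype ι] [DecidableEq ι] {t R : ℕ} (g : Finset ι → ℝ)
    (hg : ∀ T, 0 ≤ g T) {C E : ℝ}
    (hE : ∑ T ∈ powersetCard t (univ : Finset ι), g T ≤ E) :
    C * ((Fintype.piFinset fun _ : Fin R => powersetCard t (univ : Finset ι)).filter
      (fun T => C < ∑ a, g (T a))).card ≤
      R * (((Fintype.card ι).choose t : ℝ) ^ (R - 1) * E) := by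
  have h1 : ∑ T ∈ Fintype.piFinset fun _ : Fin R => powersetCard t (univ : Finset ι),
      ∑ a, g (T a) = R * (((Fintype.card ι).choose t : ℝ) ^ (R - 1) *
        ∑ T ∈ powersetCard t (univ : Finset ι), g T) := by
    rw [sum_comm]
    have h2 : ∀ a ∈ (univ : Finset (Fin R)),
        ∑ T ∈ Fintype.piFinset fun _ : Fin R => powersetCard t (univ : Finset ι), g (T a) =
        ((Fintype.card ι).choose t : ℝ) ^ (R - 1) *
          ∑ T ∈ powersetCard t (univ : Finset ι), g T := by
      intro a _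
      rw [Fintype.sum_piFinset_apply g _ a, card_powersetCard, card_univ, Fintype.card_fin,
        nsmul_eq_mul, Nat.cast_pow]
    rw [sum_congr rfl h2, sum_const, card_univ, Fintype.card_fin, nsmul_eq_mul]
  have h2 : C * ((Fintype.piFinset fun _ : Fin R => powersetCard t (univ : Finset ι)).filter
      (fun T => C < ∑ a, g (T a))).card ≤
      ∑ T ∈ Fintype.piFinset fun _ : Fin R => powersetCard t (univ : Finset ι), ∑ a, g (T a) := by
    rw [mul_comm, ← nsmul_eq_mul]
    refine (card_nsmul_le_sum _ _ C fun T hT => ?_).trans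
      (sum_le_sum_of_subset_of_nonneg (filter_subset _ _) fun T _ _ =>
        sum_nonneg fun a _ => hg _)
    exact (mem_filter.1 hT).2.le
  rw [h1] at h2
  refine h2.trans ?_
  have h3 : (0 : ℝ) ≤ ((Fintype.card ι).choose t : ℝ) ^ (R - 1) := by positivity
  have h4 : (0 : ℝ) ≤ R := by positivity
  exact mul_le_mul_of_nonneg_left (mul_le_mul_of_nonneg_left hE h3) h4

/-- numerics -/
theorem two_pow_exp {n : ℕ} (hn : 5 ≤ n) : (2 : ℝ) ^ n * Real.exp (-(n : ℝ)) ≤ 1 / 4 := by
  have he : (2.7 : ℝ) < Real.exp 1 := lt_trans (by norm_num) Real.exp_one_gt_d9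
  have h1 : Real.exp (-(n : ℝ)) = (Real.exp (-1)) ^ n := by
    rw [← Real.exp_nat_mul]
    congr 1
    ring
  rw [h1, ← mul_pow]
  have h2 : Real.exp (-1) ≤ 10 / 27 := by
    rw [Real.exp_neg, inv_le_comm₀ (Real.exp_pos _) (by norm_num)]
    norm_num at he ⊢
    exact he.le
  have h3 : 2 * Real.exp (-1) ≤ 20 / 27 := by linarith
  have h4 : 0 ≤ 2 * Real.exp (-1) := by positivity
  have h5 : (2 * Real.exp (-1)) ^ n ≤ (2 * Real.exp (-1)) ^ 5 :=
    pow_le_pow_of_le_one h4 (by linarith) hn
  refine h5.trans ((pow_le_pow_left₀ h4 h3 5).trans ?_)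
  norm_num

end HitAux

open HitAux in
/-- Take `R = ⌈n C(n,t) / C(k,t)⌉` and sum over all functions `T : Fin R → powersetCard t univ`
(a product measure).  A fixed `S` of size `k` contains no `T a` for a fraction
`(1 - C(k,t)/C(n,t))^R ≤ exp (-n)` of the functions, and there are at most `2^n` sets `S`, with
`2^n exp (-n) ≤ 1/4` for `n ≥ 5`.  The mean of `Σ_a e (T a) w` is at most
`R C(k,t) B / C(n,t) ≤ 2 n B`, so by Markov the mean of the fraction of `w ∈ P` with
`Σ_a e (T a) w > 16 n B` is at most `1/8`.  So the mean of `[not hitting] + 2 (bad fraction)` is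
at most `1/2 < 1`.  Here `R ≤ 2 n C(n,t)/C(k,t) ≤ 2 n 2^n ≤ 4^n`. -/
theorem hit_select {ι : Type} [Fintype ι] [DecidableEq ι] {t k : ℕ} (h5 : 5 ≤ Fintype.card ι)
    (htk : t ≤ k) (hk : k ≤ Fintype.card ι) {W : Type} (P : Finset W) (e : Finset ι → W → ℝ)
    (he : ∀ T w, 0 ≤ e T w) {B : ℝ} (hB : 0 < B)
    (hE : ∀ w ∈ P, ∑ T ∈ powersetCard t (univ : Finset ι), e T w ≤ (k.choose t : ℝ) * B) :
    ∃ R : ℕ, R ≤ 2 ^ (2 * Fintype.card ι) ∧ ∃ T : Fin R → Finset ι, (∀ a, (T a).card = t) ∧
      (∀ S : Finset ι, S.card = k → ∃ a, T a ⊆ S) ∧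
      P.card ≤ 2 * (P.filter
        (fun w => ∑ a, e (T a) w ≤ 16 * (Fintype.card ι : ℝ) * B)).card := by
  classical
  set n := Fintype.card ι with hn
  have hq : 0 < k.choose t := Nat.choose_pos htk
  have hqN : k.choose t ≤ n.choose t := Nat.choose_le_choose t hk
  have hN : 0 < n.choose t := lt_of_lt_of_le hq hqN
  have hq' : (0 : ℝ) < k.choose t := by exact_mod_cast hq
  have hq1 : (1 : ℝ) ≤ k.choose t := by exact_mod_cast hq
  have hqN' : (k.choose t : ℝ) ≤ n.choose t := by exact_mod_cast hqN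
  have hN' : (0 : ℝ) < n.choose t := by exact_mod_cast hN
  have hn5 : (5 : ℝ) ≤ n := by exact_mod_cast h5
  have hx1 : (1 : ℝ) ≤ n * n.choose t / k.choose t := by
    rw [le_div_iff₀ hq', one_mul]
    nlinarith
  obtain ⟨R, hR⟩ : ∃ R : ℕ, R = ⌈(n : ℝ) * n.choose t / k.choose t⌉₊ := ⟨_, rfl⟩
  have hR1 : (n : ℝ) * n.choose t / k.choose t ≤ R := by
    rw [hR]; exact Nat.le_ceil _
  have hR2 : (R : ℝ) ≤ 2 * (n * n.choose t / k.choose t) := by
    have := Nat.ceil_lt_add_one (a := (n : ℝ) * n.choose t / k.choose t) (by positivity)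
    rw [← hR] at this
    linarith
  have hRpos : 1 ≤ R := by
    have : (1 : ℝ) ≤ R := hx1.trans hR1
    exact_mod_cast this
  refine ⟨R, ?_, ?_⟩
  · have h1 : (n : ℝ) * n.choose t / k.choose t ≤ n * 2 ^ n := by
      have h2 : (n.choose t : ℝ) ≤ 2 ^ n := by exact_mod_cast Nat.choose_le_two_pow n t
      rw [div_le_iff₀ hq']
      have h3 : (0 : ℝ) ≤ n * 2 ^ n := by positivity
      calc (n : ℝ) * n.choose t ≤ n * 2 ^ n := mul_le_mul_of_nonneg_left h2 (by positivity)
        _ = n * 2 ^ n * 1 := by ring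
        _ ≤ n * 2 ^ n * k.choose t := mul_le_mul_of_nonneg_left hq1 h3
    have h2 : (R : ℝ) ≤ ((2 * n * 2 ^ n : ℕ) : ℝ) := by
      push_cast
      linarith
    have h3 : R ≤ 2 * n * 2 ^ n := by exact_mod_cast h2
    have h4 : 2 * n ≤ 2 ^ n := by
      clear_value n
      clear hx1 hR1 hR2 hR h1 h2 h3 hn5 hN' hqN' hq1 hq' hN hqN hq hE hn hk
      induction n, h5 using Nat.le_induction with
      | base => norm_num
      | succ m hm ih =>
        have : 2 ≤ 2 ^ m := by
          calc 2 = 2 ^ 1 := by norm_num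
            _ ≤ 2 ^ m := Nat.pow_le_pow_right (by norm_num) (by omega)
        rw [pow_succ]
        omega
    calc R ≤ 2 * n * 2 ^ n := h3
      _ ≤ 2 ^ n * 2 ^ n := Nat.mul_le_mul_right _ h4
      _ = 2 ^ (2 * n) := by rw [← pow_add]; congr 1; omega
  · -- the sample space
    set Ω : Finset (Fin R → Finset ι) :=
      Fintype.piFinset fun _ : Fin R => powersetCard t (univ : Finset ι) with hΩ
    have hΩc : (Ω.card : ℝ) = (n.choose t : ℝ) ^ R := by
      rw [hΩ, Fintype.card_piFinset_const, card_powersetCard, card_univ, ← hn, Nat.cast_pow]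
    have hΩpos : (0 : ℝ) < Ω.card := by rw [hΩc]; positivity
    -- not hitting
    have hA : ((Ω.filter (fun T => ¬ ∀ S : Finset ι, S.card = k → ∃ a, T a ⊆ S)).card : ℝ) ≤
        Ω.card / 4 := by
      refine (card_nonhit (t := t) hk R).trans ?_
      rw [← hn, hΩc]
      have h1 : (n.choose t : ℝ) - k.choose t ≤
          n.choose t * Real.exp (-((k.choose t : ℝ) / n.choose t)) := by
        have h2 := Real.one_sub_le_exp_neg ((k.choose t : ℝ) / n.choose t)
        have h3 := mul_le_mul_of_nonneg_left h2 hN'.le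
        rw [mul_sub, mul_one, mul_div_cancel₀ _ hN'.ne'] at h3
        exact h3
      have h2 : 0 ≤ (n.choose t : ℝ) - k.choose t := by linarith
      have h3 := pow_le_pow_left₀ h2 h1 R
      rw [mul_pow, ← Real.exp_nat_mul] at h3
      have h4 : Real.exp (R * -((k.choose t : ℝ) / n.choose t)) ≤ Real.exp (-(n : ℝ)) := by
        apply Real.exp_le_exp.2
        rw [mul_neg, neg_le_neg_iff]
        rw [div_le_iff₀ hq'] at hR1
        rw [← mul_div_assoc, le_div_iff₀ hN']
        exact hR1
      have h6 : (0 : ℝ) ≤ (n.choose t : ℝ) ^ R := by positivity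
      calc (2 : ℝ) ^ n * ((n.choose t : ℝ) - k.choose t) ^ R
          ≤ 2 ^ n * ((n.choose t : ℝ) ^ R * Real.exp (-(n : ℝ))) :=
            mul_le_mul_of_nonneg_left (h3.trans (mul_le_mul_of_nonneg_left h4 h6)) (by positivity)
        _ = (n.choose t : ℝ) ^ R * (2 ^ n * Real.exp (-(n : ℝ))) := by ring
        _ ≤ (n.choose t : ℝ) ^ R * (1 / 4) := mul_le_mul_of_nonneg_left (two_pow_exp h5) h6
        _ = (n.choose t : ℝ) ^ R / 4 := by ring
    -- bad
    have hBad : ∀ w ∈ P, ((Ω.filter
        (fun T => 16 * (n : ℝ) * B < ∑ a, e (T a) w)).card : ℝ) ≤ Ω.card / 8 := by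
      intro w hw
      have h1 := markov (t := t) (R := R) (fun T => e T w) (fun T => he T w)
        (C := 16 * (n : ℝ) * B) (hE w hw)
      rw [← hn, ← hΩ] at h1
      have h2 : (R : ℝ) * ((n.choose t : ℝ) ^ (R - 1) * ((k.choose t : ℝ) * B)) ≤
          2 * n * B * Ω.card := by
        rw [hΩc]
        have h3 : (n.choose t : ℝ) ^ R = (n.choose t : ℝ) ^ (R - 1) * n.choose t := by
          rw [← pow_succ]
          congr 1
          omega
        rw [h3]
        have h4 : (R : ℝ) * k.choose t ≤ 2 * n * n.choose t := by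
          have h6 := mul_le_mul_of_nonneg_right hR2 hq'.le
          have h7 : 2 * ((n : ℝ) * n.choose t / k.choose t) * k.choose t =
              2 * n * n.choose t := by
            field_simp
          linarith
        have h6 : (0 : ℝ) ≤ (n.choose t : ℝ) ^ (R - 1) * B := by positivity
        have h7 := mul_le_mul_of_nonneg_right h4 h6
        linarith
      have h3 := h1.trans h2
      have h4 : (0 : ℝ) < 16 * n * B := by positivity
      have h6 : 2 * (n : ℝ) * B * Ω.card = 16 * n * B * (Ω.card / 8) := by ring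
      rw [h6] at h3
      exact le_of_mul_le_mul_left h3 h4
    by_contra hcon
    push Not at hcon
    set H := Ω.filter (fun T => ∀ S : Finset ι, S.card = k → ∃ a, T a ⊆ S) with hH
    have hHc : (3 / 4 : ℝ) * Ω.card ≤ H.card := by
      have h1 := card_filter_add_card_filter_not (s := Ω)
        (fun T => ∀ S : Finset ι, S.card = k → ∃ a, T a ⊆ S)
      have h2 : (H.card : ℝ) + ((Ω.filter
          (fun T => ¬ ∀ S : Finset ι, S.card = k → ∃ a, T a ⊆ S)).card : ℝ) = Ω.card := by
        exact_mod_cast h1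
      linarith
    have hbad2 : ∀ T ∈ H, (P.card : ℝ) ≤
        2 * ((P.filter (fun w => 16 * (n : ℝ) * B < ∑ a, e (T a) w)).card : ℝ) ∧ 0 < P.card := by
      intro T hT
      rw [hH, mem_filter] at hT
      have h1 := hcon T (fun a => (mem_powersetCard.1 (Fintype.mem_piFinset.1 hT.1 a)).2) hT.2
      have h2 := card_filter_add_card_filter_not (s := P)
        (fun w => ∑ a, e (T a) w ≤ 16 * (n : ℝ) * B)
      simp only [not_le] at h2
      refine ⟨?_, by omega⟩
      have h3 : P.card ≤ 2 * (P.filter (fun w => 16 * (n : ℝ) * B < ∑ a, e (T a) w)).card := by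
        omega
      exact_mod_cast h3
    have hHpos : (0 : ℝ) < H.card := by
      have : (0 : ℝ) < 3 / 4 * Ω.card := by positivity
      linarith
    obtain ⟨T₀, hT₀⟩ : H.Nonempty := by
      rw [← card_pos]
      exact_mod_cast hHpos
    have hPpos : (0 : ℝ) < P.card := by exact_mod_cast (hbad2 T₀ hT₀).2
    have h1 : (H.card : ℝ) * P.card ≤ ∑ T ∈ H,
        2 * ((P.filter (fun w => 16 * (n : ℝ) * B < ∑ a, e (T a) w)).card : ℝ) := by
      rw [← nsmul_eq_mul]
      exact card_nsmul_le_sum _ _ _ fun T hT => (hbad2 T hT).1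
    have h2 : ∑ T ∈ H,
        2 * ((P.filter (fun w => 16 * (n : ℝ) * B < ∑ a, e (T a) w)).card : ℝ) ≤
        ∑ T ∈ Ω, 2 * ((P.filter (fun w => 16 * (n : ℝ) * B < ∑ a, e (T a) w)).card : ℝ) :=
      sum_le_sum_of_subset_of_nonneg (filter_subset _ _) fun T _ _ => by positivity
    have h3 : ∑ T ∈ Ω, 2 * ((P.filter (fun w => 16 * (n : ℝ) * B < ∑ a, e (T a) w)).card : ℝ) =
        2 * ∑ w ∈ P, ((Ω.filter (fun T => 16 * (n : ℝ) * B < ∑ a, e (T a) w)).card : ℝ) := by
      rw [← mul_sum]
      congr 1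
      have h4 : ∑ T ∈ Ω, (P.filter (fun w => 16 * (n : ℝ) * B < ∑ a, e (T a) w)).card =
          ∑ w ∈ P, (Ω.filter (fun T => 16 * (n : ℝ) * B < ∑ a, e (T a) w)).card := by
        simp only [card_filter]
        exact sum_comm
      exact_mod_cast h4
    have h4 : ∑ w ∈ P, ((Ω.filter (fun T => 16 * (n : ℝ) * B < ∑ a, e (T a) w)).card : ℝ) ≤
        P.card * (Ω.card / 8) := by
      rw [← nsmul_eq_mul]
      exact sum_le_card_nsmul _ _ _ hBad
    have h6 : (H.card : ℝ) * P.card ≤ 2 * (P.card * (Ω.card / 8)) := by linarith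
    have h7 : (3 / 4 * Ω.card : ℝ) * P.card ≤ H.card * P.card :=
      mul_le_mul_of_nonneg_right hHc hPpos.le
    nlinarith [mul_pos hPpos hΩpos]

end P047F
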