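import Vale.Agent.Lib.P047F.IB.Round

/-!
# P047 Part I.B: iteration of the round lemma
-/

open Finset

namespace P047F

variable {ι : Type} [Fintype ι] [DecidableEq ι]

/-- difference of two elements of `WS` -/
theorem ws_sub {m : ℕ} {ρ M : ℝ} {w w' : (ι → Bool) → ℤ} (hw : w ∈ WS ι m ρ M)
    (hw' : w' ∈ WS ι m ρ M) : (fun x => w x - w' x) ∈ WS ι m (2 * ρ) (4 * M) := by
  obtain ⟨u, hu1, hu2, hu3⟩ := hw
  obtain ⟨v, hv1, hv2, hv3⟩ := hw'
  refine ⟨fun x => u x - v x, ?_, ?_, ?_⟩
  · intro T hT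
    have h1 := hu1 T hT
    have h2 := hv1 T hT
    have h3 : ∑ x, (fun x => u x - v x + ((w x - w' x : ℤ) : ℝ)) x * (chi T x : ℝ) =
        ∑ x, (fun x => u x + (w x : ℝ)) x * (chi T x : ℝ) -
          ∑ x, (fun x => v x + (w' x : ℝ)) x * (chi T x : ℝ) := by
      rw [← Finset.sum_sub_distrib]
      refine Finset.sum_congr rfl fun x _ => ?_
      push_cast
      ring
    rw [h1, h2, sub_zero] at h3
    exact h3
  · intro x
    have h1 := abs_le.1 (hu2 x)
    have h2 := abs_le.1 (hv2 x)
    rw [abs_le]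
    constructor <;> linarith [h1.1, h1.2, h2.1, h2.2]
  · have h1 : ∑ x, (u x - v x) ^ 2 ≤ ∑ x, (2 * u x ^ 2 + 2 * v x ^ 2) :=
      Finset.sum_le_sum fun x _ => by nlinarith [sq_nonneg (u x + v x)]
    rw [Finset.sum_add_distrib, ← Finset.mul_sum, ← Finset.mul_sum] at h1
    linarith

/-- iteration: if all differences in `P` have degree at most `j` and `C(j,t) < A0^K` then
`|P| ≤ (4 exp κE)^K`.  Induction on `K` (`K = 0` is impossible for `m ≤ j`, since `1 ≤ C(j,t)`).
If `j ≤ m` then `|P| ≤ 1`.  Otherwise `j'` := the least `j' ≥ m` with `C(j,t) ≤ A0 C(j'+1,t)`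
(`j' < j`); apply `round_lemma` to `{w - w₁ : w ∈ P}` (`ws_sub`, injective); if `j' = m` then
`|P'| ≤ 1`, otherwise `C(j',t) A0 < C(j,t) < A0^(K+1)`. -/
theorem iter_rounds {m t : ℕ} (h5 : 5 ≤ Fintype.card ι) (htm : t ≤ m) {F : ℝ} (hF0 : 0 ≤ F)
    (hF : F < Real.log 2)
    (hC : ∀ (κ : Type) [Fintype κ] [DecidableEq κ], Fintype.card κ + t = Fintype.card ι →
      Cnt κ (m - t) (1 / 4096) F) {A0 : ℝ} (hA0 : 1 ≤ A0) {M : ℝ} (hM : 1 ≤ M) (K : ℕ) :
    ∀ (j : ℕ), m ≤ j → j ≤ Fintype.card ι → (j.choose t : ℝ) < A0 ^ K →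
      ∀ P : Finset ((ι → Bool) → ℤ), (∀ w ∈ P, w ∈ WS ι m ((1 / 2) ^ (t + 1) / 4096) M) →
      (∀ w ∈ P, ∀ w' ∈ P, Eqv m w w' → w = w') →
      (∀ w ∈ P, ∀ w' ∈ P, DegLe j (fun x => (w x : ℝ) - (w' x : ℝ))) →
      (P.card : ℝ) ≤ (4 * Real.exp ((2 * (Fintype.card ι : ℝ) + 3) * F *
        (64 * (Fintype.card ι : ℝ) * 2 ^ t * A0 * M))) ^ K := by
  obtain ⟨X, hX⟩ : ∃ X : ℝ, X = 4 * Real.exp ((2 * (Fintype.card ι : ℝ) + 3) * F *
        (64 * (Fintype.card ι : ℝ) * 2 ^ t * A0 * M)) := ⟨_, rfl⟩
  have hX1 : 1 ≤ X := by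
    have h1 : 0 ≤ (2 * (Fintype.card ι : ℝ) + 3) * F *
        (64 * (Fintype.card ι : ℝ) * 2 ^ t * A0 * M) := by positivity
    have h2 := Real.one_le_exp h1
    rw [hX]
    linarith
  rw [← hX]
  have hA0p : 0 < A0 := lt_of_lt_of_le one_pos hA0
  -- at most one element
  have hone : ∀ Q : Finset ((ι → Bool) → ℤ),
      (∀ w ∈ Q, ∀ w' ∈ Q, Eqv m w w' → w = w') →
      (∀ w ∈ Q, ∀ w' ∈ Q, DegLe m (fun x => (w x : ℝ) - (w' x : ℝ))) → (Q.card : ℝ) ≤ 1 := by
    intro Q h1 h2
    have h3 : Q.card ≤ 1 := Finset.card_le_one.2 fun w hw w' hw' => h1 w hw w' hw' (h2 w hw w' hw')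
    exact_mod_cast h3
  induction K with
  | zero =>
    intro j hmj _ hch
    have h1 : 1 ≤ j.choose t := Nat.choose_pos (htm.trans hmj)
    have h2 : (1 : ℝ) ≤ j.choose t := by exact_mod_cast h1
    rw [pow_zero] at hch
    linarith
  | succ K ih =>
    intro j hmj hjn hch P hP hinj hd
    have hXK : X ≤ X ^ (K + 1) := le_self_pow₀ hX1 (by omega)
    rcases eq_or_lt_of_le hmj with h0 | h0
    · subst h0
      exact ((hone P hinj hd).trans hX1).trans hXK
    · classical
      rcases P.eq_empty_or_nonempty with hPe | ⟨w₁, hw₁⟩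
      · rw [hPe, Finset.card_empty, Nat.cast_zero]
        positivity
      · have hex : ∃ a : ℕ, m ≤ a ∧ (j.choose t : ℝ) ≤ A0 * ((a + 1).choose t : ℝ) := by
          refine ⟨j - 1, by omega, ?_⟩
          have e : j - 1 + 1 = j := by omega
          rw [e]
          have h1 : (0 : ℝ) ≤ (j.choose t : ℝ) := Nat.cast_nonneg _
          nlinarith
        obtain ⟨j', hj'⟩ : ∃ j', j' = Nat.find hex := ⟨_, rfl⟩
        have hspec := Nat.find_spec hex
        have hmin : ∀ a < j', ¬ (m ≤ a ∧ (j.choose t : ℝ) ≤ A0 * ((a + 1).choose t : ℝ)) :=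
          fun a ha => Nat.find_min hex (hj' ▸ ha)
        rw [← hj'] at hspec
        have hjj : j' < j := by
          have h1 : j' ≤ j - 1 := by
            rw [hj']
            refine Nat.find_min' hex ⟨by omega, ?_⟩
            have e : j - 1 + 1 = j := by omega
            rw [e]
            have h1 : (0 : ℝ) ≤ (j.choose t : ℝ) := Nat.cast_nonneg _
            nlinarith
          omega
        obtain ⟨φ, hφ⟩ : ∃ φ : ((ι → Bool) → ℤ) → ((ι → Bool) → ℤ),
            φ = fun w => fun x => w x - w₁ x := ⟨_, rfl⟩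
        have hφi : Function.Injective φ := by
          intro w w' h
          funext x
          have h1 := congrFun h x
          rw [hφ] at h1
          simp only at h1
          omega
        have hcard1 : (P.image φ).card = P.card := Finset.card_image_of_injective _ hφi
        obtain ⟨P', hP'sub, hP'card, hP'deg⟩ := round_lemma (m := m) (t := t) h5 htm hF0 hF hC
          hspec.1 hjj hjn hA0 hspec.2 hM (P.image φ)
          (by
            intro w hw
            obtain ⟨v, hv, rfl⟩ := Finset.mem_image.1 hw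
            have h1 := ws_sub (hP v hv) (hP w₁ hw₁)
            have e : (2 : ℝ) * ((1 / 2) ^ (t + 1) / 4096) = (1 / 2) ^ t / 4096 := by ring
            rw [e] at h1
            rw [hφ]
            exact h1)
          (by
            intro w hw
            obtain ⟨v, hv, rfl⟩ := Finset.mem_image.1 hw
            have h1 := hd v hv w₁ hw₁
            have e : (fun x => ((φ v x : ℤ) : ℝ)) = fun x => (v x : ℝ) - (w₁ x : ℝ) := by
              funext x
              rw [hφ]
              push_cast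
              ring
            rw [e]
            exact h1)
        rw [← hX, hcard1] at hP'card
        obtain ⟨Q, hQ⟩ : ∃ Q : Finset ((ι → Bool) → ℤ), Q = P.filter fun w => φ w ∈ P' := ⟨_, rfl⟩
        have hQP : ∀ w ∈ Q, w ∈ P := fun w hw => by
          rw [hQ, Finset.mem_filter] at hw
          exact hw.1
        have hQcard : P'.card ≤ Q.card := by
          have h1 : P' ⊆ Q.image φ := by
            intro v hv
            obtain ⟨w, hw, hwv⟩ := Finset.mem_image.1 (hP'sub hv)
            refine Finset.mem_image.2 ⟨w, ?_, hwv⟩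
            rw [hQ, Finset.mem_filter]
            exact ⟨hw, hwv ▸ hv⟩
          exact (Finset.card_le_card h1).trans Finset.card_image_le
        have hQdeg : ∀ w ∈ Q, ∀ w' ∈ Q, DegLe j' (fun x => (w x : ℝ) - (w' x : ℝ)) := by
          intro w hw w' hw'
          rw [hQ, Finset.mem_filter] at hw hw'
          have h1 := hP'deg _ hw.2 _ hw'.2
          have e : (fun x => ((φ w x : ℤ) : ℝ) - ((φ w' x : ℤ) : ℝ)) =
              fun x => (w x : ℝ) - (w' x : ℝ) := by
            funext x
            rw [hφ]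
            push_cast
            ring
          rw [e] at h1
          exact h1
        have hQinj : ∀ w ∈ Q, ∀ w' ∈ Q, Eqv m w w' → w = w' :=
          fun w hw w' hw' => hinj w (hQP w hw) w' (hQP w' hw')
        have hX0 : 0 ≤ X := by linarith
        have hPQ : (P.card : ℝ) ≤ X * (Q.card : ℝ) := by
          refine hP'card.trans (mul_le_mul_of_nonneg_left ?_ hX0)
          exact_mod_cast hQcard
        rcases eq_or_lt_of_le hspec.1 with h1 | h1
        · have h2 := hone Q hQinj (by rw [h1]; exact hQdeg)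
          calc (P.card : ℝ) ≤ X * (Q.card : ℝ) := hPQ
            _ ≤ X * 1 := mul_le_mul_of_nonneg_left h2 hX0
            _ = X := mul_one X
            _ ≤ X ^ (K + 1) := hXK
        · have h2 := hmin (j' - 1) (by omega)
          have e : j' - 1 + 1 = j' := by omega
          rw [e, not_and, not_le] at h2
          have h3 := h2 (by omega)
          have h4 : (j'.choose t : ℝ) < A0 ^ K := by
            rw [pow_succ] at hch
            have h5 : A0 * (j'.choose t : ℝ) < A0 * A0 ^ K := by
              rw [mul_comm A0 (A0 ^ K)]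
              exact h3.trans hch
            exact lt_of_mul_lt_mul_left h5 hA0p.le
          have h6 := ih j' h1.le (by omega) h4 Q (fun w hw => hP w (hQP w hw)) hQinj hQdeg
          calc (P.card : ℝ) ≤ X * (Q.card : ℝ) := hPQ
            _ ≤ X * X ^ K := mul_le_mul_of_nonneg_left h6 hX0
            _ = X ^ (K + 1) := by ring

end P047F
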