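import Vale.Agent.Lib.P047F.IB.Der

/-!
# P047 Part I.B: Parseval and the energy of the derivatives
-/

open Finset

namespace P047F

variable {ι : Type} [Fintype ι] [DecidableEq ι]

omit [DecidableEq ι] in
/-- orthogonality of the characters, in the dual form -/
theorem Pars_chi_sum (x y : ι → Bool) :
    ∑ S : Finset ι, ((chi S x : ℝ) * (chi S y : ℝ)) =
      if x = y then (2 : ℝ) ^ (Fintype.card ι) else 0 := by
  have h1 : ∑ S : Finset ι, ((chi S x : ℝ) * (chi S y : ℝ)) =
      ∏ i : ι, (1 + (if x i then (-1 : ℝ) else 1) * (if y i then (-1 : ℝ) else 1)) := by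
    rw [Finset.prod_one_add, Finset.powerset_univ]
    refine Finset.sum_congr rfl fun S _ => ?_
    simp only [chi]
    push_cast
    rw [← Finset.prod_mul_distrib]
  rw [h1]
  split_ifs with h
  · subst h
    have h2 : ∀ i : ι, (1 + (if x i then (-1 : ℝ) else 1) * (if x i then (-1 : ℝ) else 1)) = 2 := by
      intro i
      split_ifs <;> norm_num
    simp only [h2, Finset.prod_const, Finset.card_univ]
  · obtain ⟨i, hi⟩ := Function.ne_iff.1 h
    refine Finset.prod_eq_zero (Finset.mem_univ i) ?_
    cases hx : x i <;> cases hy : y i <;> simp_all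

theorem parsevalB (g : (ι → Bool) → ℝ) :
    ∑ S : Finset ι, fc g S ^ 2 = 2 ^ (Fintype.card ι) * ∑ x, g x ^ 2 := by
  have h1 : ∀ S : Finset ι, fc g S ^ 2 =
      ∑ x, ∑ y, (g x * g y) * ((chi S x : ℝ) * (chi S y : ℝ)) := by
    intro S
    unfold fc
    rw [sq, Finset.sum_mul_sum]
    refine Finset.sum_congr rfl fun x _ => Finset.sum_congr rfl fun y _ => ?_
    ring
  simp only [h1]
  rw [Finset.sum_comm, Finset.mul_sum]
  refine Finset.sum_congr rfl fun x _ => ?_
  rw [Finset.sum_comm]
  simp only [← Finset.mul_sum, Pars_chi_sum]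
  rw [Finset.sum_eq_single x]
  · rw [if_pos rfl]
    ring
  · intro y _ hy
    rw [if_neg (Ne.symm hy), mul_zero]
  · intro h
    exact absurd (Finset.mem_univ x) h

/-- sums over the subsets of the complement of `T` are sums over the supersets of `T` -/
theorem Pars_super (T : Finset ι) (F : Finset ι → ℝ) :
    ∑ U : Finset {i // i ∉ T}, F (T ∪ U.map (Function.Embedding.subtype _)) =
      ∑ S ∈ (univ : Finset (Finset ι)).filter (fun S => T ⊆ S), F S := by
  refine Finset.sum_bij' (fun U _ => T ∪ U.map (Function.Embedding.subtype _))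
    (fun S _ => S.subtype (fun i => i ∉ T)) ?_ ?_ ?_ ?_ ?_
  · intro U _
    simp only [Finset.mem_filter, Finset.mem_univ, true_and]
    exact Finset.subset_union_left
  · intro S _
    exact Finset.mem_univ _
  · intro U _
    ext i
    simp only [Finset.mem_subtype, Finset.mem_union, Finset.mem_map,
      Function.Embedding.coe_subtype]
    constructor
    · rintro (h | ⟨a, ha, hai⟩)
      · exact absurd h i.2
      · have h2 : a = i := Subtype.ext hai
        rwa [← h2]
    · intro h
      exact Or.inr ⟨i, h, rfl⟩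
  · intro S hS
    simp only [Finset.mem_filter, Finset.mem_univ, true_and] at hS
    ext i
    simp only [Finset.mem_subtype, Finset.mem_union, Finset.mem_map,
      Function.Embedding.coe_subtype]
    constructor
    · rintro (h | ⟨a, ha, hai⟩)
      · exact hS h
      · rwa [← hai]
    · intro h
      by_cases hT : i ∈ T
      · exact Or.inl hT
      · exact Or.inr ⟨⟨i, hT⟩, h, rfl⟩
  · intro U _
    rfl

/-- the mean energy of the derivatives of order `t`: by Parseval on both cubes and `fc_der`,
`2^(n-t) Σ_z (der T g z)^2 = Σ_{S ⊇ T} (fc g S)^2`; a set `S` contains `C(|S|,t)` sets `T` -/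
theorem der_energy {j : ℕ} (t : ℕ) {g : (ι → Bool) → ℝ} (hg : DegLe j g) :
    ∑ T ∈ powersetCard t (univ : Finset ι), ∑ z, der T g z ^ 2 ≤
      2 ^ t * (j.choose t : ℝ) * ∑ x, g x ^ 2 := by
  rcases Nat.lt_or_ge (Fintype.card ι) t with hlt | hge
  · have h1 : powersetCard t (univ : Finset ι) = ∅ :=
      Finset.powersetCard_eq_empty.2 (by rwa [Finset.card_univ])
    rw [h1, Finset.sum_empty]
    have h2 : 0 ≤ ∑ x, g x ^ 2 := Finset.sum_nonneg fun x _ => sq_nonneg _
    positivity
  have key : ∀ T ∈ powersetCard t (univ : Finset ι),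
      (2 : ℝ) ^ (Fintype.card ι - t) * ∑ z, der T g z ^ 2 =
        ∑ S ∈ (univ : Finset (Finset ι)).filter (fun S => T ⊆ S), fc g S ^ 2 := by
    intro T hT
    have hTc : T.card = t := (Finset.mem_powersetCard.1 hT).2
    have h1 := parsevalB (der T g)
    have h2 : Fintype.card {i // i ∉ T} = Fintype.card ι - t := by
      rw [← hTc, ← Finset.card_compl, Fintype.card_subtype]
      congr 1
      ext i
      simp
    rw [h2] at h1
    rw [← h1, ← Pars_super T (fun S => fc g S ^ 2)]
    refine Finset.sum_congr rfl fun U _ => ?_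
    rw [fc_der]
  have hpos : (0 : ℝ) < 2 ^ (Fintype.card ι - t) := by positivity
  have hmul : (2 : ℝ) ^ (Fintype.card ι - t) *
      ∑ T ∈ powersetCard t (univ : Finset ι), ∑ z, der T g z ^ 2 =
      ∑ S : Finset ι, (S.card.choose t : ℝ) * fc g S ^ 2 := by
    rw [Finset.mul_sum, Finset.sum_congr rfl key]
    simp only [Finset.sum_filter]
    rw [Finset.sum_comm]
    refine Finset.sum_congr rfl fun S _ => ?_
    rw [← Finset.sum_filter, Finset.sum_const, nsmul_eq_mul]
    congr 2
    have h3 : (powersetCard t (univ : Finset ι)).filter (fun T => T ⊆ S) = powersetCard t S := by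
      ext T
      simp only [Finset.mem_filter, Finset.mem_powersetCard]
      constructor
      · rintro ⟨⟨-, h4⟩, h5⟩
        exact ⟨h5, h4⟩
      · rintro ⟨h5, h4⟩
        exact ⟨⟨Finset.subset_univ _, h4⟩, h5⟩
    rw [h3, Finset.card_powersetCard]
  have hle : ∑ S : Finset ι, (S.card.choose t : ℝ) * fc g S ^ 2 ≤
      (j.choose t : ℝ) * ∑ S : Finset ι, fc g S ^ 2 := by
    rw [Finset.mul_sum]
    refine Finset.sum_le_sum fun S _ => ?_
    rcases Nat.lt_or_ge j S.card with h | h
    · have h0 : fc g S = 0 := (degLe_iff_fc.1 hg) S h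
      rw [h0]
      simp
    · have h1 : (S.card.choose t : ℝ) ≤ (j.choose t : ℝ) := by
        exact_mod_cast Nat.choose_le_choose t h
      exact mul_le_mul_of_nonneg_right h1 (sq_nonneg _)
  rw [parsevalB] at hle
  rw [← hmul] at hle
  have h5 : (2 : ℝ) ^ (Fintype.card ι) = 2 ^ (Fintype.card ι - t) * 2 ^ t := by
    rw [← pow_add]
    congr 1
    omega
  have h6 : (2 : ℝ) ^ (Fintype.card ι - t) *
      ∑ T ∈ powersetCard t (univ : Finset ι), ∑ z, der T g z ^ 2 ≤
      2 ^ (Fintype.card ι - t) * (2 ^ t * (j.choose t : ℝ) * ∑ x, g x ^ 2) := by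
    refine hle.trans (le_of_eq ?_)
    rw [h5]
    ring
  exact le_of_mul_le_mul_left h6 hpos

end P047F
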