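import Vale.Agent.Lib.P047F.IB.Der

/-!
# P047 Part I.B: representatives of the classes of `∂_T w`
-/

open Finset

namespace P047F

variable {ι : Type} [Fintype ι] [DecidableEq ι]

/-- the Fourier coefficients which determine the class -/
private noncomputable def Rep_key (m : ℕ) (T : Finset ι) (w : (ι → Bool) → ℤ) (S : Finset ι) : ℝ :=
  if T ⊆ S ∧ m < S.card then fc (fun x => (w x : ℝ)) S else 0

private theorem Rep_key_iff {m : ℕ} {T : Finset ι} {w w' : (ι → Bool) → ℤ} :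
    Rep_key m T w = Rep_key m T w' ↔ ∀ S : Finset ι, T ⊆ S → m < S.card →
      fc (fun x => (w x : ℝ) - (w' x : ℝ)) S = 0 := by
  constructor
  · intro h S h1 h2
    have h3 := congrFun h S
    unfold Rep_key at h3
    rw [if_pos ⟨h1, h2⟩, if_pos ⟨h1, h2⟩] at h3
    rw [fc_sub, h3, sub_self]
  · intro h
    funext S
    unfold Rep_key
    by_cases h1 : T ⊆ S ∧ m < S.card
    · rw [if_pos h1, if_pos h1]
      have h2 := h S h1.1 h1.2
      rw [fc_sub] at h2
      exact sub_eq_zero.1 h2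
    · rw [if_neg h1, if_neg h1]

private theorem Rep_key_der {m t : ℕ} (htm : t ≤ m) {T : Finset ι} (hT : T.card = t)
    {w w' : (ι → Bool) → ℤ} :
    Eqv (m - t) (derZ T w) (derZ T w') ↔ Rep_key m T w = Rep_key m T w' := by
  rw [Rep_key_iff, ← degLe_der_iff htm hT]
  unfold Eqv
  have h1 : (fun z => ((derZ T w z : ℤ) : ℝ) - ((derZ T w' z : ℤ) : ℝ)) =
      der T (fun x => (w x : ℝ) - (w' x : ℝ)) := by
    funext z
    rw [derZ_cast, derZ_cast, der_sub]
  rw [h1]

/-- For a fixed `t`-set `T`: `w ≈ w'` iff `DegLe (m-t) (∂_T (w - w'))`, i.e. (`degLe_der_iff`)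
`fc (w - w') S = 0` for all `S ⊇ T`, `m < |S|`.  `r w` = an element of `P` equivalent to `w` with
the least energy `Σ_z (der T (u w) z)^2` (the same element for equivalent `w`).  Last clause: the
functions `derZ T c`, `c ∈ r(P)` of energy at most `M`, are pairwise inequivalent elements of
`WS (m-t) (1/4096) M`, with `u := der T (u c)` (`der_le`). -/
theorem rep_T {m t : ℕ} (htm : t ≤ m) {T : Finset ι} (hT : T.card = t) {F : ℝ}
    (hC : Cnt {i // i ∉ T} (m - t) (1 / 4096) F) (P : Finset ((ι → Bool) → ℤ))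
    (u : ((ι → Bool) → ℤ) → (ι → Bool) → ℝ)
    (hu : ∀ w ∈ P, DegLe m (fun x => u w x + (w x : ℝ)))
    (hu' : ∀ w ∈ P, ∀ x, |u w x| ≤ (1 / 2) ^ t / 4096) :
    ∃ r : ((ι → Bool) → ℤ) → ((ι → Bool) → ℤ),
      (∀ w ∈ P, r w ∈ P) ∧
      (∀ w ∈ P, ∑ z, der T (u (r w)) z ^ 2 ≤ ∑ z, der T (u w) z ^ 2) ∧
      (∀ w ∈ P, ∀ w' ∈ P, r w = r w' → ∀ S : Finset ι, T ⊆ S → m < S.card →
        fc (fun x => (w x : ℝ) - (w' x : ℝ)) S = 0) ∧
      ∀ M : ℝ, 1 ≤ M →
        (((P.image r).filter (fun c => ∑ z, der T (u c) z ^ 2 ≤ M)).card : ℝ) ≤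
          Real.exp (F * M) := by
  classical
  -- the representative of a key
  have hR : ∀ k : Finset ι → ℝ, ∃ c : (ι → Bool) → ℤ,
      (P.filter fun v => Rep_key m T v = k).Nonempty →
        c ∈ P ∧ Rep_key m T c = k ∧ ∀ v ∈ P, Rep_key m T v = k →
          ∑ z, der T (u c) z ^ 2 ≤ ∑ z, der T (u v) z ^ 2 := by
    intro k
    by_cases h : (P.filter fun v => Rep_key m T v = k).Nonempty
    · obtain ⟨c, hc, hmin⟩ := Finset.exists_min_image _ (fun v => ∑ z, der T (u v) z ^ 2) h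
      rw [Finset.mem_filter] at hc
      exact ⟨c, fun _ => ⟨hc.1, hc.2, fun v hv hk => hmin v (Finset.mem_filter.2 ⟨hv, hk⟩)⟩⟩
    · exact ⟨0, fun h' => absurd h' h⟩
  choose R hR using hR
  have hr : ∀ w ∈ P, R (Rep_key m T w) ∈ P ∧ Rep_key m T (R (Rep_key m T w)) = Rep_key m T w ∧
      ∀ v ∈ P, Rep_key m T v = Rep_key m T w →
        ∑ z, der T (u (R (Rep_key m T w))) z ^ 2 ≤ ∑ z, der T (u v) z ^ 2 := fun w hw =>
    hR _ ⟨w, Finset.mem_filter.2 ⟨hw, rfl⟩⟩
  refine ⟨fun w => R (Rep_key m T w), fun w hw => (hr w hw).1, fun w hw => (hr w hw).2.2 w hw rfl,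
    ?_, ?_⟩
  · intro w hw w' hw' h
    have h1 : Rep_key m T w = Rep_key m T w' := by
      rw [← (hr w hw).2.1, ← (hr w' hw').2.1]
      exact congrArg _ h
    exact Rep_key_iff.1 h1
  · intro M hM
    set Q := (P.image fun w => R (Rep_key m T w)).filter
      (fun c => ∑ z, der T (u c) z ^ 2 ≤ M) with hQ
    have hQ1 : ∀ c ∈ Q, c ∈ P ∧ R (Rep_key m T c) = c ∧ ∑ z, der T (u c) z ^ 2 ≤ M := by
      intro c hc
      rw [hQ, Finset.mem_filter, Finset.mem_image] at hc
      obtain ⟨⟨w, hw, rfl⟩, h2⟩ := hc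
      refine ⟨(hr w hw).1, ?_, h2⟩
      rw [(hr w hw).2.1]
    have hinj : ∀ c ∈ Q, ∀ c' ∈ Q, Eqv (m - t) (derZ T c) (derZ T c') → c = c' := by
      intro c hc c' hc' h
      rw [Rep_key_der htm hT] at h
      rw [← (hQ1 c hc).2.1, ← (hQ1 c' hc').2.1, h]
    have hinj2 : Set.InjOn (derZ T) (Q : Set ((ι → Bool) → ℤ)) := by
      intro c hc c' hc' h
      refine hinj c hc c' hc' ?_
      rw [h]
      intro S _
      simp
    rw [← Finset.card_image_of_injOn hinj2]
    refine hC M hM _ ?_ ?_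
    · intro w hw
      obtain ⟨c, hc, rfl⟩ := Finset.mem_image.1 hw
      obtain ⟨hcP, -, hcM⟩ := hQ1 c hc
      refine ⟨der T (u c), ?_, ?_, hcM⟩
      · have h1 : (fun z => der T (u c) z + ((derZ T c z : ℤ) : ℝ)) =
            der T (fun x => u c x + (c x : ℝ)) := by
          funext z
          rw [derZ_cast, der_add]
        rw [h1, degLe_der_iff htm hT]
        intro S _ hS
        exact hu c hcP S hS
      · intro z
        have h1 := der_le T (hu' c hcP) z
        rw [hT] at h1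
        refine h1.trans (le_of_eq ?_)
        rw [← mul_div_assoc, ← mul_pow]
        norm_num
    · intro w hw w' hw' h
      obtain ⟨c, hc, rfl⟩ := Finset.mem_image.1 hw
      obtain ⟨c', hc', rfl⟩ := Finset.mem_image.1 hw'
      rw [hinj c hc c' hc' h]

end P047F
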