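import Vale.Agent.Lib.P047F.IB.Pars
import Vale.Agent.Lib.P047F.IB.Count
import Vale.Agent.Lib.P047F.IB.Hit
import Vale.Agent.Lib.P047F.IB.Rep

/-!
# P047 Part I.B: the round lemma
-/

open Finset

namespace P047F

variable {ι : Type} [Fintype ι] [DecidableEq ι]

/-- Choose `u w` for `w ∈ P` (`0` off `P`); `DegLe j (u w)` since `DegLe j w` and
`DegLe m (u w + w)`, `m ≤ j`.  `e T w := Σ_z (der T (u w) z)^2`; `der_energy` gives
`Σ_T e T w ≤ 2^t C(j,t) 4M ≤ C(j'+1,t) B`, `B := 2^t A0 4 M`.  `hit_select` with `k = j'+1`: sets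
`T a`, and at least half of `P` is good.  Map a good `w` to `(r_a w)_a` (`rep_T` for `T a`);
the values are records of total energy at most `16 n B = 64 n 2^t A0 M`: at most
`2 exp ((2n+3) F 64 n 2^t A0 M)` of them (`count_records`, `p = 2n`, `X a = P.image (r a)`).
`P'` := the largest fibre.  For `w, w'` in it and `|S| > j'`: `S` contains a set of size `j'+1`,
hence some `T a`, so `fc (w - w') S = 0`. -/
theorem round_lemma {m t : ℕ} (h5 : 5 ≤ Fintype.card ι) (htm : t ≤ m) {F : ℝ} (hF0 : 0 ≤ F)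
    (hF : F < Real.log 2)
    (hC : ∀ (κ : Type) [Fintype κ] [DecidableEq κ], Fintype.card κ + t = Fintype.card ι →
      Cnt κ (m - t) (1 / 4096) F) {j j' : ℕ} (hmj : m ≤ j') (hjj : j' < j)
    (hjn : j ≤ Fintype.card ι) {A0 : ℝ} (hA0 : 1 ≤ A0)
    (hch : (j.choose t : ℝ) ≤ A0 * ((j' + 1).choose t : ℝ)) {M : ℝ} (hM : 1 ≤ M)
    (P : Finset ((ι → Bool) → ℤ)) (hP : ∀ w ∈ P, w ∈ WS ι m ((1 / 2) ^ t / 4096) (4 * M))
    (hd : ∀ w ∈ P, DegLe j (fun x => (w x : ℝ))) :
    ∃ P' ⊆ P, (P.card : ℝ) ≤ 4 * Real.exp ((2 * (Fintype.card ι : ℝ) + 3) * F *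
        (64 * (Fintype.card ι : ℝ) * 2 ^ t * A0 * M)) * (P'.card : ℝ) ∧
      ∀ w ∈ P', ∀ w' ∈ P', DegLe j' (fun x => (w x : ℝ) - (w' x : ℝ)) := by
  classical
  have hu : ∀ w : (ι → Bool) → ℤ, ∃ u : (ι → Bool) → ℝ, w ∈ P →
      (DegLe m (fun x => u x + (w x : ℝ)) ∧ (∀ x, |u x| ≤ (1 / 2) ^ t / 4096) ∧
        ∑ x, u x ^ 2 ≤ 4 * M) := by
    intro w
    by_cases hw : w ∈ P
    · obtain ⟨u, h1, h2, h3⟩ := hP w hw
      exact ⟨u, fun _ => ⟨h1, h2, h3⟩⟩
    · exact ⟨0, fun h => absurd h hw⟩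
  choose u hu using hu
  have hdu : ∀ w ∈ P, DegLe j (u w) := by
    intro w hw S hS
    have h1 := (hu w hw).1 S (by omega)
    have h2 := hd w hw S hS
    have h3 : ∑ x, u w x * (chi S x : ℝ) =
        ∑ x, (u w x + (w x : ℝ)) * (chi S x : ℝ) - ∑ x, (w x : ℝ) * (chi S x : ℝ) := by
      rw [← Finset.sum_sub_distrib]
      exact Finset.sum_congr rfl fun x _ => by ring
    rw [h3, h1, h2, sub_zero]
  obtain ⟨B, hBdef⟩ : ∃ B : ℝ, B = 2 ^ t * A0 * (4 * M) := ⟨_, rfl⟩
  have hB : 0 < B := by rw [hBdef]; positivity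
  obtain ⟨e, hedef⟩ : ∃ e : Finset ι → ((ι → Bool) → ℤ) → ℝ,
      e = fun T w => ∑ z, der T (u w) z ^ 2 := ⟨_, rfl⟩
  have he : ∀ T w, 0 ≤ e T w := by
    intro T w
    rw [hedef]
    exact Finset.sum_nonneg fun z _ => sq_nonneg _
  have hE : ∀ w ∈ P, ∑ T ∈ powersetCard t (univ : Finset ι), e T w ≤
      ((j' + 1).choose t : ℝ) * B := by
    intro w hw
    have h1 := der_energy t (hdu w hw)
    have h2 : (2 : ℝ) ^ t * (j.choose t : ℝ) * ∑ x, u w x ^ 2 ≤
        2 ^ t * (A0 * ((j' + 1).choose t : ℝ)) * (4 * M) := by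
      have h3 := (hu w hw).2.2
      have h4 : 0 ≤ ∑ x, u w x ^ 2 := Finset.sum_nonneg fun x _ => sq_nonneg _
      gcongr
    rw [hedef, hBdef]
    calc _ ≤ _ := h1
      _ ≤ _ := h2
      _ = _ := by ring
  obtain ⟨R, hR, T, hTc, hThit, hgood⟩ :=
    hit_select h5 (show t ≤ j' + 1 by omega) (show j' + 1 ≤ Fintype.card ι by omega) P e he hB hE
  have hcard : ∀ a, Fintype.card {i // i ∉ T a} + t = Fintype.card ι := by
    intro a
    have h1 : Fintype.card {i // i ∉ T a} = Fintype.card ι - (T a).card := by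
      rw [Fintype.card_subtype, Finset.filter_notMem_eq_sdiff, Finset.card_univ_sdiff]
    have h2 : (T a).card ≤ Fintype.card ι := Finset.card_le_univ _
    rw [h1, ← hTc a]
    omega
  have hrep := fun a => rep_T htm (hTc a) (hC _ (hcard a)) P u
    (fun w hw => (hu w hw).1) (fun w hw => (hu w hw).2.1)
  choose r hr1 hr2 hr3 hr4 using hrep
  obtain ⟨E, hEdef⟩ : ∃ E : ℝ, E = 16 * (Fintype.card ι : ℝ) * B := ⟨_, rfl⟩
  have hcnt := count_records hR (fun a => P.image (r a)) (fun a => e (T a))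
    (fun a c => he (T a) c) hF0 hF (fun a M hM => by rw [hedef]; exact hr4 a M hM) E
  rw [← hEdef] at hgood
  obtain ⟨G, hG⟩ : ∃ G : Finset ((ι → Bool) → ℤ),
    G = P.filter (fun w => ∑ a, e (T a) w ≤ E) := ⟨_, rfl⟩
  rw [← hG] at hgood
  obtain ⟨RR, hRR⟩ : ∃ RR : Finset (Fin R → (ι → Bool) → ℤ),
    RR = (Fintype.piFinset (fun a => P.image (r a))).filter
      (fun c => ∑ a, e (T a) (c a) ≤ E) := ⟨_, rfl⟩
  rw [← hRR] at hcnt
  have hmap : G.image (fun w a => r a w) ⊆ RR := by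
    intro c hc
    obtain ⟨w, hw, rfl⟩ := Finset.mem_image.1 hc
    rw [hG, Finset.mem_filter] at hw
    rw [hRR, Finset.mem_filter, Fintype.mem_piFinset]
    refine ⟨fun a => Finset.mem_image_of_mem _ hw.1, ?_⟩
    refine le_trans (Finset.sum_le_sum fun a _ => ?_) hw.2
    rw [hedef]
    exact hr2 a w hw.1
  rcases G.eq_empty_or_nonempty with hG0 | hGne
  · refine ⟨∅, Finset.empty_subset _, ?_, fun w hw => absurd hw (Finset.notMem_empty w)⟩
    rw [hG0, Finset.card_empty] at hgood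
    have : P.card = 0 := by omega
    rw [this]
    simp
  · obtain ⟨c0, hc0, hmax⟩ := Finset.exists_max_image (G.image (fun w a => r a w))
      (fun c => (G.filter (fun w => (fun a => r a w) = c)).card) (hGne.image _)
    obtain ⟨P', hP'⟩ : ∃ P' : Finset ((ι → Bool) → ℤ),
      P' = G.filter (fun w => (fun a => r a w) = c0) := ⟨_, rfl⟩
    have h1 : G.card ≤ P'.card * (G.image (fun w a => r a w)).card := by
      rw [hP']
      exact Finset.card_le_mul_card_image G _ (fun c hc => hmax c hc)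
    refine ⟨P', ?_, ?_, ?_⟩
    · intro w hw
      rw [hP', Finset.mem_filter, hG, Finset.mem_filter] at hw
      exact hw.1.1
    · have h2 : ((G.image (fun w a => r a w)).card : ℝ) ≤ RR.card := by
        exact_mod_cast Finset.card_le_card hmap
      have h3 : (G.card : ℝ) ≤ P'.card * (G.image (fun w a => r a w)).card := by
        exact_mod_cast h1
      have h4 : (P.card : ℝ) ≤ 2 * G.card := by exact_mod_cast hgood
      have h5' : (G.card : ℝ) ≤ P'.card * RR.card :=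
        h3.trans (mul_le_mul_of_nonneg_left h2 (Nat.cast_nonneg _))
      have h6 : (P'.card : ℝ) * RR.card ≤
          P'.card * (2 * Real.exp ((((2 * Fintype.card ι : ℕ) : ℝ) + 3) * F * E)) :=
        mul_le_mul_of_nonneg_left hcnt (Nat.cast_nonneg _)
      have h7 : (((2 * Fintype.card ι : ℕ) : ℝ) + 3) * F * E =
          (2 * (Fintype.card ι : ℝ) + 3) * F * (64 * (Fintype.card ι : ℝ) * 2 ^ t * A0 * M) := by
        rw [hEdef, hBdef]
        push_cast
        ring
      rw [h7] at h6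
      linarith
    · intro w hw w' hw' S hS
      rw [hP', Finset.mem_filter, hG, Finset.mem_filter] at hw hw'
      obtain ⟨S0, hS0, hS0c⟩ := Finset.exists_subset_card_eq (show j' + 1 ≤ S.card by omega)
      obtain ⟨a, ha⟩ := hThit S0 hS0c
      have h8 : r a w = r a w' := congrFun (hw.2.trans hw'.2.symm) a
      exact hr3 a w hw.1.1 w' hw'.1.1 h8 S (ha.trans hS0) (by omega)

end P047F
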